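import Vale.Agent.P238.Gadget

namespace Vale.Agent.P238

open Finset

theorem exists_ofFn {n : ℕ} (l : List Bool) (hl : l.length = n) :
    ∃ x : Fin n → Bool, List.ofFn x = l := by
  subst hl
  exact ⟨l.get, List.ofFn_get l⟩

theorem gad_char {b h Q τ : ℕ} {η : ℝ} {k q : ℕ} (g : Gad b h Q τ η k q) (hη : 0 < η) (hτ : 0 < τ)
    (C3 : (η * (((4 * h : ℕ) : ℝ) * (Q + 1) + 1) ^ k) ^ 2 * (τ : ℝ) ^ k ≤ 1)
    (φ : g.G →+ UnitAddCircle) :
    ‖φ g.y‖ ^ 2 ≤ ∑ i : g.L ⊕ g.A,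
      Sum.elim (fun _ => (Q : ℝ) ^ 2 / (τ : ℝ) ^ k) (fun _ => 1 / η ^ 2) i *
        ‖φ (Sum.elim g.eL g.eA i)‖ ^ 2 := by
  rw [Fintype.sum_sum_type]
  simp only [Sum.elim_inl, Sum.elim_inr]
  have hτk : (0 : ℝ) < (τ : ℝ) ^ k := by positivity
  have hL : ∑ l, (Q : ℝ) ^ 2 / (τ : ℝ) ^ k * ‖φ (g.eL l)‖ ^ 2 =
      ((Q : ℝ) ^ 2 * ∑ l, ‖φ (g.eL l)‖ ^ 2) / (τ : ℝ) ^ k := by
    rw [← Finset.mul_sum]; ring
  have hL0 : 0 ≤ ∑ l, (Q : ℝ) ^ 2 / (τ : ℝ) ^ k * ‖φ (g.eL l)‖ ^ 2 :=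
    Finset.sum_nonneg fun l _ => by positivity
  have hA0 : 0 ≤ ∑ a, 1 / η ^ 2 * ‖φ (g.eA a)‖ ^ 2 :=
    Finset.sum_nonneg fun l _ => by positivity
  have hy1 : ‖φ g.y‖ ^ 2 ≤ 1 := by
    have := norm_le_half (φ g.y)
    nlinarith [norm_nonneg (φ g.y)]
  by_cases hA : ∀ a, ‖φ (g.eA a)‖ ≤ η
  · have key : ‖φ g.y‖ ^ 2 ≤ ((Q : ℝ) ^ 2 * ∑ l, ‖φ (g.eL l)‖ ^ 2) / (τ : ℝ) ^ k := by
      rw [le_div_iff₀ hτk]
      by_cases hb : η * (((4 * h : ℕ) : ℝ) * (Q + 1) + 1) ^ k < ‖φ g.y‖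
      · have := g.big φ hA hb
        nlinarith
      · by_cases h0 : φ g.y = 0
        · rw [h0, norm_zero]
          have : 0 ≤ (Q : ℝ) ^ 2 * ∑ l, ‖φ (g.eL l)‖ ^ 2 :=
            mul_nonneg (sq_nonneg _) (Finset.sum_nonneg fun l _ => sq_nonneg _)
          simpa using this
        · have h1 := g.one φ h0
          have h2 := pow_le_pow_left₀ (norm_nonneg _) (not_lt.mp hb) 2
          have h3 := mul_le_mul_of_nonneg_right h2 hτk.le
          linarith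
    rw [hL]
    linarith
  · obtain ⟨a, ha⟩ := not_forall.mp hA
    have h1 : 1 ≤ 1 / η ^ 2 * ‖φ (g.eA a)‖ ^ 2 := by
      rw [one_div_mul_eq_div, le_div_iff₀ (by positivity), one_mul]
      exact pow_le_pow_left₀ hη.le (not_le.mp ha).le 2
    have h2 := Finset.single_le_sum (f := fun a => 1 / η ^ 2 * ‖φ (g.eA a)‖ ^ 2)
      (fun a _ => by positivity) (Finset.mem_univ a)
    linarith

theorem gad_bound {b h Q τ : ℕ} {η : ℝ} {k q : ℕ} (g : Gad b h Q τ η k q) (hq : 2 ≤ q)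
    (hη : 0 < η) (hτ : 0 < τ) (hb : 0 < b) (hh : 0 < h)
    (C1 : (1 + b) * (Q + 1) ^ k < 2 ^ h)
    (C3 : (η * (((4 * h : ℕ) : ℝ) * (Q + 1) + 1) ^ k) ^ 2 * (τ : ℝ) ^ k ≤ 1)
    (C4 : (k : ℝ) * (τ : ℝ) ^ k ≤ b * η ^ 2 * (Q : ℝ) ^ 2)
    (n : ℕ) (hn : (b * (4 * h)) ^ k * ((k + 1 + 1) * (Q + 2)) ≤ n)
    (f : (Fin n → Bool) → lp (fun _ : ℕ => ℝ) 1) (A B : ℝ) (hA0 : 0 ≤ A) (hB0 : 0 ≤ B)
    (hA : ∀ x y, ‖f x - f y‖ ≤ A * binaryED n x y)
    (hB : ∀ x y, binaryED n x y ≤ B * ‖f x - f y‖) :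
    (τ : ℝ) ^ k ≤ 512 * (((k + 1 + 1) * (Q + 2) : ℕ) : ℝ) * (Q : ℝ) ^ 2 * 2 ^ k * (A * B) := by
  set ℓ := (k + 1 + 1) * (Q + 2) with hℓ
  set m := (b * (4 * h)) ^ k with hm
  have hcode : ∀ θ, ∀ σ ∈ g.W θ, (code Q σ).length = ℓ := fun θ σ hσ =>
    length_code Q (k + 1) σ (g.good θ σ hσ).1 (g.good θ σ hσ).2
  have hlen : ∀ θ, (List.replicate (n - m * ℓ) false ++ (g.W θ).flatMap (code Q)).length = n := by
    intro θ
    rw [List.length_append, List.length_replicate, length_flatMap_const _ _ ℓ (hcode θ), g.len,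
      ← hm]
    omega
  choose x hx using fun θ => exists_ofFn _ (hlen θ)
  have hup : ∀ (e : g.G) (c : ℕ), (∀ θ, Close (g.W θ) (g.W (θ + e)) c) →
      ∑ θ, ‖f (x (θ + e)) - f (x θ)‖ ≤ Fintype.card g.G * (A * (2 * (c * ℓ))) := by
    intro e c hc
    have : ∀ θ, ‖f (x (θ + e)) - f (x θ)‖ ≤ A * (2 * (c * ℓ)) := by
      intro θ
      refine (hA _ _).trans (mul_le_mul_of_nonneg_left ?_ hA0)
      unfold binaryED
      rw [hx, hx]
      have h1 := ((Close.refl (List.replicate (n - m * ℓ) false)).append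
        ((hc θ).symm.flatMap_code (code Q) ℓ (hcode _) (hcode _))).editDist_le
      rw [zero_add] at h1
      exact_mod_cast h1
    refine (Finset.sum_le_sum fun θ _ => this θ).trans ?_
    simp
  have hlow : (Fintype.card g.G : ℝ) * ((2 * b * h) ^ k : ℕ) ≤
      32 * B * ∑ θ, ‖f (x (θ + g.y)) - f (x θ)‖ := by
    have : ∀ θ, (((2 * b * h) ^ k : ℕ) : ℝ) ≤ 32 * B * ‖f (x (θ + g.y)) - f (x θ)‖ := by
      intro θ
      have h1 := g.far 1 C1 1 (by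
        intro hd
        have := Int.le_of_dvd one_pos hd
        omega) (by simp) θ
      rw [one_smul] at h1
      have h2 := edits_editDist (List.ofFn (x θ)) (List.ofFn (x (θ + g.y)))
      have h3 : Close (g.W θ) (g.W (θ + g.y))
          (32 * editDist (List.ofFn (x θ)) (List.ofFn (x (θ + g.y)))) := by
        apply decode_close Q (k + 1) (n - m * ℓ) (n - m * ℓ) _ _ (g.good _) (g.good _)
        rw [← hx, ← hx]
        exact h2
      have h4 := h1.le_of_close (g.len θ) h3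
      have h5 := hB (x θ) (x (θ + g.y))
      rw [norm_sub_rev] at h5
      unfold binaryED at h5
      have h6 : (((2 * b * h) ^ k : ℕ) : ℝ) ≤
          32 * (editDist (List.ofFn (x θ)) (List.ofFn (x (θ + g.y))) : ℝ) := by
        exact_mod_cast h4
      linarith
    rw [Finset.mul_sum]
    refine le_trans ?_ (Finset.sum_le_sum fun θ _ => this θ)
    simp
  have hP := poincare_l1 g.y (Sum.elim g.eL g.eA)
    (Sum.elim (fun _ => (Q : ℝ) ^ 2 / (τ : ℝ) ^ k) (fun _ => 1 / η ^ 2))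
    (by rintro (_ | _) <;> simp only [Sum.elim_inl, Sum.elim_inr] <;> positivity)
    (gad_char g hη hτ C3) (fun θ => f (x θ))
  rw [Fintype.sum_sum_type] at hP
  simp only [Sum.elim_inl, Sum.elim_inr] at hP
  rw [← Finset.mul_sum, ← Finset.mul_sum] at hP
  have hN : (0 : ℝ) < Fintype.card g.G := by exact_mod_cast Fintype.card_pos
  generalize (Fintype.card g.G : ℝ) = N at hup hlow hN
  have hτk : (0 : ℝ) < (τ : ℝ) ^ k := by positivity
  have hb' : (0 : ℝ) < b := by exact_mod_cast hb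
  have hSL : ∑ l, ∑ θ, ‖f (x (θ + g.eL l)) - f (x θ)‖ ≤ N * A * 2 * ℓ * m := by
    refine (Finset.sum_le_sum fun l _ => hup _ _ (g.closeL l)).trans ?_
    have h1 : (∑ l, (g.cL l : ℝ)) ≤ m := by exact_mod_cast g.sumL
    calc ∑ l, N * (A * (2 * ((g.cL l : ℝ) * ℓ))) = N * A * 2 * ℓ * ∑ l, (g.cL l : ℝ) := by
          rw [Finset.mul_sum]
          exact Finset.sum_congr rfl fun l _ => by ring
      _ ≤ N * A * 2 * ℓ * m := by gcongr
  have hSA : ∑ l, ∑ θ, ‖f (x (θ + g.eA l)) - f (x θ)‖ ≤ N * A * 2 * ℓ * (k * m / b) := by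
    refine (Finset.sum_le_sum fun l _ => hup _ _ (g.closeA l)).trans ?_
    have h1 : (∑ l, (g.cA l : ℝ)) ≤ k * m / b := by
      rw [le_div_iff₀ hb', mul_comm]
      exact_mod_cast g.sumA
    calc ∑ l, N * (A * (2 * ((g.cA l : ℝ) * ℓ))) = N * A * 2 * ℓ * ∑ l, (g.cA l : ℝ) := by
          rw [Finset.mul_sum]
          exact Finset.sum_congr rfl fun l _ => by ring
      _ ≤ N * A * 2 * ℓ * (k * m / b) := by gcongr
  have hC4 : 1 / η ^ 2 * (k / b) ≤ (Q : ℝ) ^ 2 / (τ : ℝ) ^ k := by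
    rw [le_div_iff₀ hτk, one_div_mul_eq_div, div_div, div_mul_eq_mul_div,
      div_le_iff₀ (by positivity)]
    linarith
  have hm2 : (m : ℝ) = 2 ^ k * (((2 * b * h) ^ k : ℕ) : ℝ) := by
    rw [hm]
    push_cast
    rw [← mul_pow]
    congr 1
    ring
  have hr : (0 : ℝ) < (((2 * b * h) ^ k : ℕ) : ℝ) := by positivity
  generalize (((2 * b * h) ^ k : ℕ) : ℝ) = r at hlow hm2 hr
  have hT : ∑ θ, ‖f (x (θ + g.y)) - f (x θ)‖ ≤
      4 * (2 * ((Q : ℝ) ^ 2 / (τ : ℝ) ^ k * (N * A * 2 * ℓ * m))) := by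
    refine hP.trans (mul_le_mul_of_nonneg_left ?_ (by norm_num))
    have u1 := mul_le_mul_of_nonneg_left hSL (show 0 ≤ (Q : ℝ) ^ 2 / (τ : ℝ) ^ k by positivity)
    have u2 := mul_le_mul_of_nonneg_left hSA (show 0 ≤ 1 / η ^ 2 by positivity)
    have u3 := mul_le_mul_of_nonneg_right hC4 (show 0 ≤ N * A * 2 * ℓ * m by positivity)
    have u4 : 1 / η ^ 2 * (N * A * 2 * ℓ * (k * m / b)) =
        1 / η ^ 2 * (k / b) * (N * A * 2 * ℓ * m) := by ring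
    linarith
  have hfin := hlow.trans (mul_le_mul_of_nonneg_left hT (by positivity))
  rw [hm2] at hfin
  have e : 32 * B * (4 * (2 * ((Q : ℝ) ^ 2 / (τ : ℝ) ^ k * (N * A * 2 * ℓ * (2 ^ k * r))))) =
      N * r * ((512 * (ℓ : ℝ) * (Q : ℝ) ^ 2 * 2 ^ k * (A * B)) / (τ : ℝ) ^ k) := by ring
  rw [e] at hfin
  have h1 : 1 ≤ (512 * (ℓ : ℝ) * (Q : ℝ) ^ 2 * 2 ^ k * (A * B)) / (τ : ℝ) ^ k := by
    by_contra hcon
    have := mul_lt_mul_of_pos_left (not_le.mp hcon) (mul_pos hN hr)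
    linarith
  rwa [le_div_iff₀ hτk, one_mul] at h1

theorem le_l1Distortion (n : ℕ) (D : ℝ)
    (h : ∀ (f : (Fin n → Bool) → lp (fun _ : ℕ => ℝ) 1) (A B : ℝ), 0 ≤ A → 0 ≤ B →
      (∀ x y, ‖f x - f y‖ ≤ A * binaryED n x y) → (∀ x y, binaryED n x y ≤ B * ‖f x - f y‖) →
      D ≤ A * B) : D ≤ l1Distortion (binaryED n) := by
  have hnn : ∀ x y, 0 ≤ binaryED n x y := fun x y => Nat.cast_nonneg _
  have hpos : ∀ x y, x ≠ y → 0 < binaryED n x y := fun x y hxy => by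
    unfold binaryED
    exact_mod_cast editDist_pos fun e => hxy (List.ofFn_injective e)
  apply le_csInf
  · obtain ⟨e, he⟩ := exists_injective_nat (Fin n → Bool)
    refine ⟨_, fun x => lp.single 1 0 (e x : ℝ), ?_, rfl⟩
    intro x y hxy
    have := congrArg (fun v : lp (fun _ : ℕ => ℝ) 1 => v 0) hxy
    simp only [lp.single_apply, Pi.single_eq_same] at this
    exact he (by exact_mod_cast this)
  · rintro D' ⟨f, hf, rfl⟩
    apply h f
    · exact Real.iSup_nonneg fun p => div_nonneg (norm_nonneg _) (hnn _ _)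
    · exact Real.iSup_nonneg fun p => div_nonneg (hnn _ _) (norm_nonneg _)
    · intro x y
      by_cases hxy : x = y
      · subst hxy
        simp [binaryED, editDist_self]
      · rw [← div_le_iff₀ (hpos x y hxy)]
        exact le_ciSup (f := fun p : {p : (Fin n → Bool) × (Fin n → Bool) // p.1 ≠ p.2} =>
          ‖f p.1.1 - f p.1.2‖ / binaryED n p.1.1 p.1.2) (Set.finite_range _).bddAbove ⟨(x, y), hxy⟩
    · intro x y
      by_cases hxy : x = y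
      · subst hxy
        simp [binaryED, editDist_self]
      · have : 0 < ‖f x - f y‖ := norm_pos_iff.mpr (sub_ne_zero.mpr fun e => hxy (hf e))
        rw [← div_le_iff₀ this]
        exact le_ciSup (f := fun p : {p : (Fin n → Bool) × (Fin n → Bool) // p.1 ≠ p.2} =>
          binaryED n p.1.1 p.1.2 / ‖f p.1.1 - f p.1.2‖) (Set.finite_range _).bddAbove ⟨(x, y), hxy⟩

end Vale.Agent.P238
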