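import Vale.Agent.P238.Fourier

namespace Vale.Agent.P238

open Finset

theorem torsion_norm {M : ℕ} (hM : 0 < M) {w : UnitAddCircle} (h : M • w = 0) (hw : w ≠ 0) :
    1 ≤ (M : ℝ) * ‖w‖ := by
  have hfin : IsOfFinAddOrder w := isOfFinAddOrder_iff_nsmul_eq_zero.mpr ⟨M, hM, h⟩
  have h1 := AddCircle.le_add_order_smul_norm_of_isOfFinAddOrder (p := 1) hfin hw
  have h2 : addOrderOf w ≤ M := addOrderOf_le_of_nsmul_eq_zero hM h
  rw [nsmul_eq_mul] at h1
  have h3 : (addOrderOf w : ℝ) ≤ M := by exact_mod_cast h2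
  exact h1.trans (mul_le_mul_of_nonneg_right h3 (norm_nonneg _))

theorem norm_coe_le (z : ℝ) : ‖(z : UnitAddCircle)‖ ≤ |z| := by
  rw [UnitAddCircle.norm_eq]
  simpa using round_le z 0

theorem near_torsion {q : ℕ} (hq : 0 < q) (w : UnitAddCircle) :
    ∃ w' : UnitAddCircle, q • w' = 0 ∧ ‖w - w'‖ ≤ ‖q • w‖ := by
  obtain ⟨z, hz, hn, -⟩ := exists_rep (q • w)
  have hq' : (1 : ℝ) ≤ q := by exact_mod_cast hq
  refine ⟨w - ((z / q : ℝ) : UnitAddCircle), ?_, ?_⟩
  · rw [smul_sub, ← AddCircle.coe_nsmul, nsmul_eq_mul, mul_div_cancel₀ _ (by positivity), hz,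
      sub_self]
  · rw [sub_sub_cancel, hn]
    refine (norm_coe_le _).trans ?_
    rw [abs_div, abs_of_pos (by positivity : (0 : ℝ) < q)]
    exact div_le_self (abs_nonneg _) hq'

theorem norm_le_half (x : UnitAddCircle) : ‖x‖ ≤ 1 / 2 := by
  obtain ⟨z, -, hn, h⟩ := exists_rep x
  rw [hn]; exact h

theorem sum_tors_ne_zero {ι : Type} [DecidableEq ι] (T : Finset ι) (hT : T.Nonempty) (p : ι → ℕ)
    (hp : ∀ c c', c ≠ c' → Nat.Coprime (p c) (p c')) (w : ι → UnitAddCircle)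
    (hw : ∀ c, p c • w c = 0) (hw0 : ∀ c ∈ T, w c ≠ 0) : ∑ c ∈ T, w c ≠ 0 := by
  intro h0
  obtain ⟨c0, hc0⟩ := hT
  have h1 : (∏ c ∈ T.erase c0, p c) • ∑ c ∈ T, w c = 0 := by rw [h0, smul_zero]
  rw [← Finset.add_sum_erase T w hc0, smul_add, Finset.smul_sum] at h1
  rw [Finset.sum_eq_zero (s := T.erase c0), add_zero] at h1
  · have hcop : Nat.Coprime (p c0) (∏ c ∈ T.erase c0, p c) :=
      Nat.Coprime.prod_right fun c hc => hp _ _ (Finset.ne_of_mem_erase hc).symm
    have h2 := addOrderOf_dvd_of_nsmul_eq_zero h1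
    have h3 := addOrderOf_dvd_of_nsmul_eq_zero (hw c0)
    have h4 : addOrderOf (w c0) = 1 := Nat.eq_one_of_dvd_coprimes hcop h3 h2
    exact hw0 c0 hc0 (AddMonoid.addOrderOf_eq_one_iff.mp h4)
  · intro c hc
    obtain ⟨d, hd⟩ := Finset.dvd_prod_of_mem p hc
    rw [hd, mul_comm, mul_smul, hw, smul_zero]

section
variable {B Q q : ℕ} (p t : Fin B → ℕ) (x w : Fin B → UnitAddCircle) {η ε : ℝ}
  (hw : ∀ c, p c • w c = 0) (hxw : ∀ c, ‖x c - w c‖ ≤ ε) (hη : ‖∑ c, x c‖ ≤ η)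
  (ht : ∀ c, t c ≤ Q)
include hw hxw hη ht

theorem char_step_tors (hq : 0 < q) (hqt : ∀ c, q * t c % p c = 1) :
    ∃ w' : UnitAddCircle, q • w' = 0 ∧ ‖∑ c, t c • x c - w'‖ ≤ η + B * (Q + 1) * ε := by
  obtain ⟨w', h1, h2⟩ := near_torsion hq (∑ c, t c • w c)
  refine ⟨w', h1, ?_⟩
  have e1 : q • ∑ c, t c • w c = ∑ c, w c := by
    rw [Finset.smul_sum]
    refine Finset.sum_congr rfl fun c _ => ?_
    rw [← mul_smul, ← Nat.div_add_mod (q * t c) (p c), hqt c, add_smul, one_smul, mul_comm,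
      mul_smul, hw, smul_zero, zero_add]
  rw [e1] at h2
  have h3 : ‖∑ c, w c‖ ≤ η + B * ε := by
    have : ∑ c, w c = ∑ c, x c - ∑ c, (x c - w c) := by
      rw [Finset.sum_sub_distrib]; abel
    rw [this]
    refine (norm_sub_le _ _).trans (add_le_add hη ((norm_sum_le _ _).trans ?_))
    refine (Finset.sum_le_sum fun c _ => hxw c).trans ?_
    simp
  have h4 : ‖∑ c, t c • x c - ∑ c, t c • w c‖ ≤ B * Q * ε := by
    rw [← Finset.sum_sub_distrib]
    refine (norm_sum_le _ _).trans ?_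
    have : ∀ c, ‖t c • x c - t c • w c‖ ≤ Q * ε := by
      intro c
      rw [← smul_sub]
      refine norm_nsmul_le.trans ?_
      exact mul_le_mul (by exact_mod_cast ht c) (hxw c) (norm_nonneg _) (by positivity)
    refine (Finset.sum_le_sum fun c _ => this c).trans ?_
    simp [mul_assoc]
  calc ‖∑ c, t c • x c - w'‖
      = ‖(∑ c, t c • x c - ∑ c, t c • w c) + (∑ c, t c • w c - w')‖ := by congr 1; abel
    _ ≤ B * Q * ε + (η + B * ε) := (norm_add_le _ _).trans (add_le_add h4 (h2.trans h3))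
    _ = η + B * (Q + 1) * ε := by ring

theorem char_step_big {τ : ℕ} {δ : ℝ} (hε : 0 ≤ ε) (hδ : η + B * (Q + 1) * ε ≤ δ)
    (hp : ∀ c c', c ≠ c' → Nat.Coprime (p c) (p c')) (hp0 : ∀ c, 0 < p c) (hpQ : ∀ c, p c ≤ Q)
    (hQ : 1 ≤ Q) (hbig : δ < ‖∑ c, t c • x c‖) (hsmall : δ * (Q : ℝ) ^ τ < 1) :
    τ ≤ (Finset.univ.filter fun c => ε < ‖x c‖).card := by
  set T := Finset.univ.filter fun c => ε < ‖x c‖ with hT
  have hη0 : 0 ≤ η := (norm_nonneg _).trans hη
  have hBε : 0 ≤ (B : ℝ) * ε := by positivity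
  have hBQε : 0 ≤ (B : ℝ) * Q * ε := by positivity
  have hne : T.Nonempty := by
    by_contra hcon
    rw [Finset.not_nonempty_iff_eq_empty] at hcon
    have hall : ∀ c, ‖x c‖ ≤ ε := by
      intro c
      by_contra hc
      have : c ∈ T := by simp [hT, not_le.mp hc]
      simp [hcon] at this
    have : ‖∑ c, t c • x c‖ ≤ B * Q * ε := by
      refine (norm_sum_le _ _).trans ?_
      have : ∀ c, ‖t c • x c‖ ≤ Q * ε := fun c => norm_nsmul_le.trans
        (mul_le_mul (by exact_mod_cast ht c) (hall c) (norm_nonneg _) (by positivity))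
      refine (Finset.sum_le_sum fun c _ => this c).trans ?_
      simp [mul_assoc]
    nlinarith
  have hw0 : ∀ c ∈ T, w c ≠ 0 := by
    intro c hc h0
    have h1 := hxw c
    rw [h0, sub_zero] at h1
    have := (Finset.mem_filter.mp hc).2
    linarith
  have h1 := sum_tors_ne_zero T hne p hp w hw hw0
  have h2 : (∏ c ∈ T, p c) • ∑ c ∈ T, w c = 0 := by
    rw [Finset.smul_sum]
    refine Finset.sum_eq_zero fun c hc => ?_
    obtain ⟨d, hd⟩ := Finset.dvd_prod_of_mem p hc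
    rw [hd, mul_comm, mul_smul, hw, smul_zero]
  have h3 := torsion_norm (Finset.prod_pos fun c _ => hp0 c) h2 h1
  have h4 : ‖∑ c ∈ T, w c‖ ≤ δ := by
    have e : ∑ c ∈ T, w c = ∑ c, x c - ∑ c, (if c ∈ T then x c - w c else x c) := by
      rw [← Finset.sum_sub_distrib, ← Finset.sum_filter_add_sum_filter_not Finset.univ (· ∈ T)]
      rw [Finset.sum_eq_zero (s := Finset.univ.filter fun c => c ∉ T), add_zero]
      · refine Finset.sum_congr (by ext; simp) fun c hc => ?_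
        have : c ∈ T := (Finset.mem_filter.mp hc).2
        simp [this]
      · intro c hc
        have : c ∉ T := (Finset.mem_filter.mp hc).2
        simp [this]
    rw [e]
    have : ∀ c, ‖if c ∈ T then x c - w c else x c‖ ≤ ε := by
      intro c
      split_ifs with hc
      · exact hxw c
      · by_contra hcon
        exact hc (by simp [hT, not_le.mp hcon])
    have h5 : ‖∑ c, (if c ∈ T then x c - w c else x c)‖ ≤ B * ε := by
      refine (norm_sum_le _ _).trans ((Finset.sum_le_sum fun c _ => this c).trans ?_)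
      simp
    refine (norm_sub_le _ _).trans ?_
    nlinarith
  by_contra hcon
  have h6 : ((∏ c ∈ T, p c : ℕ) : ℝ) ≤ (Q : ℝ) ^ τ := by
    have : ∏ c ∈ T, p c ≤ Q ^ τ :=
      (Finset.prod_le_pow_card T p Q fun c _ => hpQ c).trans
        (Nat.pow_le_pow_right hQ (by omega))
    exact_mod_cast this
  have h7 := mul_le_mul h6 h4 (norm_nonneg _) (by positivity)
  nlinarith

end

end Vale.Agent.P238
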