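import Vale.Agent.P238.Defs
import Mathlib.Tactic.Ring
import Mathlib.Tactic.Linarith

namespace Vale.Agent.P238

variable {α β γ : Type}

/-- `x` and `y` have a common subsequence missing at most `r` symbols of each. -/
def Close (x y : List α) (r : ℕ) : Prop :=
  ∃ z : List α, z.Sublist x ∧ z.Sublist y ∧ x.length ≤ z.length + r ∧ y.length ≤ z.length + r

theorem Close.refl (x : List α) : Close x x 0 :=
  ⟨x, List.Sublist.refl x, List.Sublist.refl x, le_rfl, le_rfl⟩

theorem Close.symm {x y : List α} {r : ℕ} (h : Close x y r) : Close y x r := by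
  obtain ⟨z, h1, h2, h3, h4⟩ := h
  exact ⟨z, h2, h1, h4, h3⟩

theorem Close.mono {x y : List α} {r s : ℕ} (h : Close x y r) (hrs : r ≤ s) : Close x y s := by
  obtain ⟨z, h1, h2, h3, h4⟩ := h
  exact ⟨z, h1, h2, by omega, by omega⟩

theorem inter_sublist {y : List α} : ∀ {z1 z2 : List α}, z1.Sublist y → z2.Sublist y →
    ∃ z : List α, z.Sublist z1 ∧ z.Sublist z2 ∧ z1.length + z2.length ≤ z.length + y.length := by
  induction y with
  | nil =>
    intro z1 z2 h1 h2
    rw [List.sublist_nil] at h1 h2
    subst h1; subst h2
    exact ⟨[], List.Sublist.refl _, List.Sublist.refl _, by simp⟩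
  | cons a y ih =>
    intro z1 z2 h1 h2
    rcases List.sublist_cons_iff.mp h1 with g1 | ⟨r1, rfl, g1⟩
    · rcases List.sublist_cons_iff.mp h2 with g2 | ⟨r2, rfl, g2⟩
      · obtain ⟨z, hz1, hz2, hz⟩ := ih g1 g2
        exact ⟨z, hz1, hz2, by simp; omega⟩
      · obtain ⟨z, hz1, hz2, hz⟩ := ih g1 g2
        exact ⟨z, hz1, hz2.cons _, by simp; omega⟩
    · rcases List.sublist_cons_iff.mp h2 with g2 | ⟨r2, rfl, g2⟩
      · obtain ⟨z, hz1, hz2, hz⟩ := ih g1 g2
        exact ⟨z, hz1.cons _, hz2, by simp; omega⟩
      · obtain ⟨z, hz1, hz2, hz⟩ := ih g1 g2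
        exact ⟨a :: z, hz1.cons_cons _, hz2.cons_cons _, by simp; omega⟩

theorem Close.trans {x y w : List α} {r s : ℕ} (h : Close x y r) (h' : Close y w s) :
    Close x w (r + s) := by
  obtain ⟨z1, h1, h2, h3, h4⟩ := h
  obtain ⟨z2, g1, g2, g3, g4⟩ := h'
  obtain ⟨z, hz1, hz2, hz⟩ := inter_sublist h2 g1
  exact ⟨z, hz1.trans h1, hz2.trans g2, by omega, by omega⟩

theorem Close.append {x y x' y' : List α} {r s : ℕ} (h : Close x y r) (h' : Close x' y' s) :
    Close (x ++ x') (y ++ y') (r + s) := by
  obtain ⟨z1, h1, h2, h3, h4⟩ := h
  obtain ⟨z2, g1, g2, g3, g4⟩ := h'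
  exact ⟨z1 ++ z2, h1.append g1, h2.append g2, by simp; omega, by simp; omega⟩

theorem Close.map {x y : List α} {r : ℕ} (f : α → β) (h : Close x y r) :
    Close (x.map f) (y.map f) r := by
  obtain ⟨z1, h1, h2, h3, h4⟩ := h
  exact ⟨z1.map f, h1.map f, h2.map f, by simpa using h3, by simpa using h4⟩

theorem Close.cons {x y : List α} {r : ℕ} (a : α) (h : Close x y r) :
    Close (a :: x) (a :: y) r := by
  obtain ⟨z1, h1, h2, h3, h4⟩ := h
  exact ⟨a :: z1, h1.cons_cons a, h2.cons_cons a, by simp; omega, by simp; omega⟩

theorem Close.cons' {x y : List α} {r : ℕ} (a b : α) (h : Close x y r) :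
    Close (a :: x) (b :: y) (r + 1) := by
  obtain ⟨z1, h1, h2, h3, h4⟩ := h
  exact ⟨z1, h1.cons a, h2.cons b, by simp; omega, by simp; omega⟩

theorem Close.cons_right {x y : List α} {r : ℕ} (b : α) (h : Close x y r) :
    Close x (b :: y) (r + 1) := by
  obtain ⟨z1, h1, h2, h3, h4⟩ := h
  exact ⟨z1, h1, h2.cons b, by omega, by simp; omega⟩

theorem Close.of_length_le {x y : List α} {r : ℕ} (hx : x.length ≤ r) (hy : y.length ≤ r) :
    Close x y r :=
  ⟨[], List.nil_sublist _, List.nil_sublist _, by simpa using hx, by simpa using hy⟩

theorem Close.flatMap_list (l : List γ) (f g : γ → List α) (r : γ → ℕ)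
    (h : ∀ i ∈ l, Close (f i) (g i) (r i)) :
    Close (l.flatMap f) (l.flatMap g) (l.map r).sum := by
  induction l with
  | nil => simpa using Close.refl ([] : List α)
  | cons a l ih =>
    simp only [List.flatMap_cons, List.map_cons, List.sum_cons]
    exact (h a (by simp)).append (ih fun i hi => h i (by simp [hi]))

theorem length_flatMap_const (x : List α) (f : α → List β) (m : ℕ)
    (h : ∀ a ∈ x, (f a).length = m) : (x.flatMap f).length = x.length * m := by
  induction x with
  | nil => simp
  | cons a x ih =>
    simp only [List.flatMap_cons, List.length_append, List.length_cons]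
    rw [h a (by simp), ih fun b hb => h b (by simp [hb])]
    ring

theorem Close.flatMap_code {x y : List α} {r : ℕ} (f : α → List β) (m : ℕ)
    (hx : ∀ a ∈ x, (f a).length = m) (hy : ∀ a ∈ y, (f a).length = m) (h : Close x y r) :
    Close (x.flatMap f) (y.flatMap f) (r * m) := by
  obtain ⟨z1, h1, h2, h3, h4⟩ := h
  refine ⟨z1.flatMap f, h1.flatMap f, h2.flatMap f, ?_, ?_⟩
  · rw [length_flatMap_const x f m hx,
      length_flatMap_const z1 f m fun a ha => hx a (h1.subset ha)]
    nlinarith
  · rw [length_flatMap_const y f m hy,
      length_flatMap_const z1 f m fun a ha => hx a (h1.subset ha)]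
    nlinarith

theorem EditStep.close {x y : List α} (h : EditStep x y) : Close x y 1 := by
  cases h with
  | insertion u v a =>
    simpa using (Close.refl u).append ((Close.refl v).cons_right a)
  | deletion u v a =>
    simpa using ((Close.refl u).append ((Close.refl v).cons_right a)).symm
  | substitution u v a b =>
    simpa using (Close.refl u).append ((Close.refl v).cons' a b)

theorem Edits.close {k : ℕ} {x y : List α} (h : Edits k x y) : Close x y k := by
  induction h with
  | refl x => exact Close.refl x
  | step h1 _ ih => exact (h1.close.trans ih).mono (by omega)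

theorem EditStep.cons {x y : List α} (a : α) (h : EditStep x y) : EditStep (a :: x) (a :: y) := by
  cases h with
  | insertion u v b => exact EditStep.insertion (a :: u) v b
  | deletion u v b => exact EditStep.deletion (a :: u) v b
  | substitution u v b c => exact EditStep.substitution (a :: u) v b c

theorem EditStep.symm {x y : List α} (h : EditStep x y) : EditStep y x := by
  cases h with
  | insertion u v b => exact EditStep.deletion u v b
  | deletion u v b => exact EditStep.insertion u v b
  | substitution u v b c => exact EditStep.substitution u v c b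

theorem Edits.cons {k : ℕ} {x y : List α} (a : α) (h : Edits k x y) :
    Edits k (a :: x) (a :: y) := by
  induction h with
  | refl x => exact Edits.refl _
  | step h1 _ ih => exact Edits.step (h1.cons a) ih

theorem Edits.trans {k l : ℕ} {x y w : List α} (h : Edits k x y) (h' : Edits l y w) :
    Edits (k + l) x w := by
  induction h with
  | refl x => simpa using h'
  | @step k x y z h1 _ ih =>
    have := Edits.step h1 (ih h')
    rwa [show k + l + 1 = k + 1 + l by omega] at this

theorem Edits.symm {k : ℕ} {x y : List α} (h : Edits k x y) : Edits k y x := by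
  induction h with
  | refl x => exact Edits.refl _
  | step h1 _ ih => exact ih.trans (Edits.step h1.symm (Edits.refl _))

theorem edits_of_sublist {z x : List α} (h : z.Sublist x) : Edits (x.length - z.length) x z := by
  induction h with
  | slnil => exact Edits.refl _
  | @cons l1 l2 a h ih =>
    have hl := h.length_le
    have := Edits.step (EditStep.deletion [] l2 a) ih
    simp only [List.nil_append] at this
    rwa [show l2.length - l1.length + 1 = (a :: l2).length - l1.length by simp; omega] at this
  | @cons_cons l1 l2 a h ih =>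
    simpa using ih.cons a

theorem Close.edits {x y : List α} {r : ℕ} (h : Close x y r) : ∃ k ≤ 2 * r, Edits k x y := by
  obtain ⟨z, h1, h2, h3, h4⟩ := h
  exact ⟨_, by omega, (edits_of_sublist h1).trans (edits_of_sublist h2).symm⟩

theorem edits_editDist (x y : List α) : Edits (editDist x y) x y := by
  obtain ⟨k, -, hk⟩ := (Close.of_length_le (x := x) (y := y) (r := x.length + y.length)
    (by omega) (by omega)).edits
  exact Nat.sInf_mem (s := {k | Edits k x y}) ⟨k, hk⟩

theorem editDist_le_of_edits {k : ℕ} {x y : List α} (h : Edits k x y) : editDist x y ≤ k :=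
  Nat.sInf_le h

theorem Close.editDist_le {x y : List α} {r : ℕ} (h : Close x y r) : editDist x y ≤ 2 * r := by
  obtain ⟨k, hk, h⟩ := h.edits
  exact (editDist_le_of_edits h).trans hk

theorem editDist_pos {x y : List α} (h : x ≠ y) : 0 < editDist x y := by
  rcases Nat.eq_zero_or_pos (editDist x y) with h0 | h0
  · have := edits_editDist x y
    rw [h0] at this
    cases this
    exact absurd rfl h
  · exact h0

theorem editDist_self (x : List α) : editDist x x = 0 :=
  Nat.le_zero.mp (editDist_le_of_edits (Edits.refl x))

/-- Splitting a word at its separators: the initial piece and the list of later tokens. -/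
def sp (s : α → Bool) : List α → List α × List (List α)
  | [] => ([], [])
  | a :: l => if s a then ([], (sp s l).1 :: (sp s l).2) else (a :: (sp s l).1, (sp s l).2)

theorem sp_ins (s : α → Bool) (l1 l2 : List α) (a : α) :
    ((sp s (l1 ++ l2)).1 = (sp s (l1 ++ a :: l2)).1 ∧
      Close (sp s (l1 ++ l2)).2 (sp s (l1 ++ a :: l2)).2 2) ∨
    Close (sp s (l1 ++ l2)).2 (sp s (l1 ++ a :: l2)).2 1 := by
  induction l1 with
  | nil =>
    right
    simp only [List.nil_append, sp]
    split_ifs
    · exact (Close.refl _).cons_right _
    · exact (Close.refl _).mono (by omega)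
  | cons b l1 ih =>
    simp only [List.cons_append, sp]
    split_ifs
    · left
      refine ⟨rfl, ?_⟩
      rcases ih with ⟨h1, h2⟩ | h
      · rw [h1]; exact h2.cons _
      · exact h.cons' _ _
    · rcases ih with ⟨h1, h2⟩ | h
      · left; exact ⟨by rw [h1], h2⟩
      · right; exact h

theorem sp_ins' (s : α → Bool) (l1 l2 : List α) (a : α) :
    Close (sp s (l1 ++ l2)).2 (sp s (l1 ++ a :: l2)).2 2 := by
  rcases sp_ins s l1 l2 a with ⟨-, h⟩ | h
  · exact h
  · exact h.mono (by omega)

theorem EditStep.close_sp (s : α → Bool) {x y : List α} (h : EditStep x y) :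
    Close (sp s x).2 (sp s y).2 4 := by
  cases h with
  | insertion u v a => exact (sp_ins' s u v a).mono (by omega)
  | deletion u v a => exact (sp_ins' s u v a).symm.mono (by omega)
  | substitution u v a b => exact (sp_ins' s u v a).symm.trans (sp_ins' s u v b)

theorem Edits.close_sp (s : α → Bool) {k : ℕ} {x y : List α} (h : Edits k x y) :
    Close (sp s x).2 (sp s y).2 (4 * k) := by
  induction h with
  | refl x => exact Close.refl _
  | step h1 _ ih => exact ((h1.close_sp s).trans ih).mono (by omega)

theorem sp_append_nonsep (s : α → Bool) (w rest : List α) (hw : ∀ a ∈ w, s a = false) :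
    sp s (w ++ rest) = (w ++ (sp s rest).1, (sp s rest).2) := by
  induction w with
  | nil => simp
  | cons a w ih =>
    have ha : s a = false := hw a (by simp)
    simp only [List.cons_append, sp, ha]
    rw [ih fun b hb => hw b (by simp [hb])]
    simp

theorem sp_flatMap (s : α → Bool) (L : List γ) (sepf : γ → α) (body : γ → List α)
    (h1 : ∀ t ∈ L, s (sepf t) = true) (h2 : ∀ t ∈ L, ∀ a ∈ body t, s a = false) :
    sp s (L.flatMap fun t => sepf t :: body t) = ([], L.map body) := by
  induction L with
  | nil => simp [sp]
  | cons t L ih =>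
    have ht : s (sepf t) = true := h1 t (by simp)
    simp only [List.flatMap_cons, List.cons_append, sp, ht, if_true, List.map_cons]
    rw [sp_append_nonsep s _ _ (h2 t (by simp)),
      ih (fun u hu => h1 u (by simp [hu])) (fun u hu => h2 u (by simp [hu]))]
    simp

/-- Unary token. -/
def un (a : ℕ) : List Bool := true :: List.replicate a false

/-- The sequence of naturals attached to a symbol. -/
def digits (Q : ℕ) (σ : List ℕ) : List ℕ := σ ++ σ.map (Q - ·)

/-- Binary code word of a symbol. -/
def code (Q : ℕ) (σ : List ℕ) : List Bool := ((Q + 1) :: digits Q σ).flatMap un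

/-- All symbols are lists of `d` naturals, each at most `Q`. -/
def GoodWord (Q d : ℕ) (x : List (List ℕ)) : Prop := ∀ σ ∈ x, σ.length = d ∧ ∀ a ∈ σ, a ≤ Q

theorem length_code (Q d : ℕ) (σ : List ℕ) (h1 : σ.length = d) (h2 : ∀ a ∈ σ, a ≤ Q) :
    (code Q σ).length = (d + 1) * (Q + 2) := by
  have key : ∀ τ : List ℕ, (∀ a ∈ τ, a ≤ Q) →
      (τ.flatMap un).length + ((τ.map (Q - ·)).flatMap un).length = τ.length * (Q + 2) := by
    intro τ hτ
    induction τ with
    | nil => simp
    | cons a τ ih =>
      have ha : a ≤ Q := hτ a (by simp)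
      have := ih fun b hb => hτ b (by simp [hb])
      simp only [List.flatMap_cons, List.map_cons, List.length_append, un, List.length_cons,
        List.length_replicate] at this ⊢
      have e : (τ.length + 1) * (Q + 2) = τ.length * (Q + 2) + (Q + 2) := by ring
      omega
  have := key σ h2
  simp only [code, digits, List.flatMap_cons, List.flatMap_append, List.length_append]
  rw [this, h1]
  simp only [un, List.length_cons, List.length_replicate]
  ring

theorem sp_pad_code (Q : ℕ) (p : ℕ) (x : List (List ℕ)) :
    (sp (fun b => b) (List.replicate p false ++ x.flatMap (code Q))).2 =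
      x.flatMap fun σ => List.replicate (Q + 1) false ::
        (digits Q σ).map fun a => List.replicate a false := by
  rw [sp_append_nonsep _ _ _ (by simp)]
  have e : x.flatMap (code Q) =
      (x.flatMap fun σ => (Q + 1) :: digits Q σ).flatMap
        fun t => true :: List.replicate t false := by
    rw [List.flatMap_assoc]
    rfl
  rw [e, sp_flatMap (fun b => b) _ (fun _ => true) (fun t => List.replicate t false) (by simp)
    (by simp)]
  simp [List.map_flatMap]

theorem decode_close (Q d : ℕ) (p p' : ℕ) (x y : List (List ℕ)) (hx : GoodWord Q d x)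
    (hy : GoodWord Q d y) {k : ℕ}
    (h : Edits k (List.replicate p false ++ x.flatMap (code Q))
      (List.replicate p' false ++ y.flatMap (code Q))) : Close x y (32 * k) := by
  have h1 := h.close_sp (fun b => b)
  rw [sp_pad_code, sp_pad_code] at h1
  obtain ⟨k1, hk1, h2⟩ := h1.edits
  have h3 := h2.close_sp (fun t => decide (t.length = Q + 1))
  have key : ∀ w : List (List ℕ), GoodWord Q d w →
      ((sp (fun t : List Bool => decide (t.length = Q + 1))
        (w.flatMap fun σ => List.replicate (Q + 1) false ::
          (digits Q σ).map fun a => List.replicate a false)).2).map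
            (fun t => (t.map List.length).take d) = w := by
    intro w hw
    rw [sp_flatMap _ w (fun _ => List.replicate (Q + 1) false)
      (fun σ => (digits Q σ).map fun a => List.replicate a false) (by simp)]
    · simp only [List.map_map]
      conv_rhs => rw [← List.map_id w]
      apply List.map_congr_left
      intro σ hσ
      have e : (List.length ∘ fun a => List.replicate a false) = id := by
        funext a; simp
      simp only [Function.comp, List.map_map, id]
      rw [e]
      simp [digits, ← (hw σ hσ).1]
    · intro σ hσ t ht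
      simp only [List.mem_map, digits, List.mem_append] at ht
      obtain ⟨a, ha, rfl⟩ := ht
      have : a ≤ Q := by
        rcases ha with ha | ⟨b, -, rfl⟩
        · exact (hw σ hσ).2 a ha
        · omega
      simp; omega
  have h4 := h3.map (fun t => (t.map List.length).take d)
  rw [key x hx, key y hy] at h4
  exact h4.mono (by omega)

end Vale.Agent.P238
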