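import Mathlib.Analysis.Normed.Lp.lpSpace
import Mathlib.Analysis.SpecialFunctions.Log.Basic
import Mathlib.Analysis.SpecialFunctions.Sqrt

namespace Vale.Agent.P238

/-- One edit operation: insertion, deletion or substitution of a single symbol. -/
inductive EditStep {α : Type} : List α → List α → Prop
  | insertion (u v : List α) (a : α) : EditStep (u ++ v) (u ++ a :: v)
  | deletion (u v : List α) (a : α) : EditStep (u ++ a :: v) (u ++ v)
  | substitution (u v : List α) (a b : α) : EditStep (u ++ a :: v) (u ++ b :: v)

/-- `Edits k x y`: the word `x` is transformed into `y` by exactly `k` edit operations. -/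
inductive Edits {α : Type} : ℕ → List α → List α → Prop
  | refl (x : List α) : Edits 0 x x
  | step {k : ℕ} {x y z : List α} : EditStep x y → Edits k y z → Edits (k + 1) x z

/-- The edit distance: the least number of edit operations transforming `x` into `y`. -/
noncomputable def editDist {α : Type} (x y : List α) : ℕ := sInf {k | Edits k x y}

/-- The least `ℓ₁` distortion of the finite metric space `(X, ρ)`: the infimum over injective
maps `f : X → ℓ₁` of (largest expansion) times (largest contraction). -/
noncomputable def l1Distortion {X : Type} (ρ : X → X → ℝ) : ℝ :=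
  sInf {D : ℝ | ∃ f : X → lp (fun _ : ℕ => ℝ) 1, Function.Injective f ∧
    D = (⨆ p : {p : X × X // p.1 ≠ p.2}, ‖f p.1.1 - f p.1.2‖ / ρ p.1.1 p.1.2) *
        (⨆ p : {p : X × X // p.1 ≠ p.2}, ρ p.1.1 p.1.2 / ‖f p.1.1 - f p.1.2‖)}

/-- Edit distance on the binary words of length `n`. -/
noncomputable def binaryED (n : ℕ) (x y : Fin n → Bool) : ℝ :=
  (editDist (List.ofFn x) (List.ofFn y) : ℝ)

end Vale.Agent.P238
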