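import Vale.Agent.P238.Defs
import Mathlib.Analysis.Fourier.FiniteAbelian.PontryaginDuality
import Mathlib.Analysis.Normed.Group.AddCircle
import Mathlib.Analysis.SpecialFunctions.Trigonometric.Bounds
import Mathlib.Analysis.Real.Pi.Bounds
import Mathlib.MeasureTheory.Integral.Bochner.Set
import Mathlib.MeasureTheory.Measure.Lebesgue.Basic

namespace Vale.Agent.P238

open Finset
open scoped ComplexConjugate

theorem exists_rep (x : UnitAddCircle) : ∃ z : ℝ, (z : UnitAddCircle) = x ∧ ‖x‖ = |z| ∧ |z| ≤ 1 / 2 := by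
  induction x using QuotientAddGroup.induction_on with
  | H a =>
    refine ⟨a - round a, ?_, UnitAddCircle.norm_eq, abs_sub_round a⟩
    rw [AddCircle.coe_sub]
    have : (((round a : ℤ) : ℝ) : UnitAddCircle) = 0 := by
      rw [AddCircle.coe_eq_zero_iff]
      exact ⟨round a, by simp⟩
    rw [this, sub_zero]

theorem chord_bounds (x : UnitAddCircle) :
    4 * ‖x‖ ≤ ‖((AddCircle.toCircle x : Circle) : ℂ) - 1‖ ∧
      ‖((AddCircle.toCircle x : Circle) : ℂ) - 1‖ ≤ 8 * ‖x‖ := by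
  obtain ⟨z, rfl, hz, hz2⟩ := exists_rep x
  rw [hz, AddCircle.toCircle_apply_mk, Circle.coe_exp, mul_comm _ Complex.I,
    Complex.norm_exp_I_mul_ofReal_sub_one]
  have e : 2 * Real.pi / 1 * z / 2 = Real.pi * z := by ring
  rw [e, Real.norm_eq_abs, abs_mul, abs_two]
  have hpi := Real.pi_pos
  have habs : |Real.pi * z| = Real.pi * |z| := by rw [abs_mul, abs_of_pos hpi]
  constructor
  · have h := Real.mul_abs_le_abs_sin (x := Real.pi * z) (by rw [habs]; nlinarith)
    rw [habs] at h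
    have e2 : 2 / Real.pi * (Real.pi * |z|) = 2 * |z| := by field_simp
    rw [e2] at h
    linarith
  · have h := Real.abs_sin_le_abs (x := Real.pi * z)
    rw [habs] at h
    have := Real.pi_le_four
    nlinarith [abs_nonneg z]

theorem exists_hom_of_addChar {G : Type} [AddCommGroup G] [Fintype G] (χ : AddChar G ℂ) :
    ∃ φ : G →+ UnitAddCircle, ∀ g, ((AddCircle.toCircle (φ g) : Circle) : ℂ) = χ g := by
  have h1 : ∀ g, ∃ x : UnitAddCircle, ((AddCircle.toCircle x : Circle) : ℂ) = χ g := by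
    intro g
    have hn : ‖χ g‖ = 1 := χ.norm_apply g
    obtain ⟨x, hx⟩ := (AddCircle.homeomorphCircle (T := 1) one_ne_zero).surjective
      ⟨χ g, by simp [Submonoid.unitSphere, hn]⟩
    refine ⟨x, ?_⟩
    rw [← AddCircle.homeomorphCircle_apply one_ne_zero, hx]
  choose f hf using h1
  refine ⟨AddMonoidHom.mk' f ?_, hf⟩
  intro a b
  apply AddCircle.injective_toCircle one_ne_zero
  apply Circle.ext
  rw [AddCircle.toCircle_add, Circle.coe_mul, hf, hf, hf, AddChar.map_add_eq_mul]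

theorem plancherel {G : Type} [AddCommGroup G] [Fintype G] (v : G → ℂ) :
    ∑ χ : AddChar G ℂ, ‖∑ θ, v θ * χ (-θ)‖ ^ 2 = Fintype.card G * ∑ θ, ‖v θ‖ ^ 2 := by
  classical
  have key : ∀ w : ℂ, ((‖w‖ ^ 2 : ℝ) : ℂ) = w * conj w := by
    intro w
    rw [Complex.mul_conj, Complex.normSq_eq_norm_sq]
  apply Complex.ofReal_injective
  rw [Complex.ofReal_sum, Complex.ofReal_mul, Complex.ofReal_sum]
  simp_rw [key]
  have e1 : ∀ χ : AddChar G ℂ, (∑ θ, v θ * χ (-θ)) * conj (∑ θ, v θ * χ (-θ)) =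
      ∑ θ, ∑ θ', v θ * conj (v θ') * χ (θ' - θ) := by
    intro χ
    rw [map_sum, Finset.sum_mul_sum]
    refine Finset.sum_congr rfl fun θ _ => Finset.sum_congr rfl fun θ' _ => ?_
    rw [map_mul, ← AddChar.map_neg_eq_conj, neg_neg, sub_eq_add_neg, AddChar.map_add_eq_mul]
    ring
  simp_rw [e1]
  rw [Finset.sum_comm]
  rw [Finset.mul_sum]
  refine Finset.sum_congr rfl fun θ _ => ?_
  rw [Finset.sum_comm]
  simp_rw [← Finset.mul_sum, AddChar.sum_apply_eq_ite, sub_eq_zero]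
  simp [mul_comm]

theorem energy_eq {G : Type} [AddCommGroup G] [Fintype G] (u : G → ℝ) (g : G) :
    Fintype.card G * ∑ θ, (u (θ + g) - u θ) ^ 2 =
      ∑ χ : AddChar G ℂ, ‖∑ θ, (u θ : ℂ) * χ (-θ)‖ ^ 2 * ‖χ g - 1‖ ^ 2 := by
  have h := plancherel (fun θ => ((u (θ + g) - u θ : ℝ) : ℂ))
  simp only [Complex.norm_real, Real.norm_eq_abs, sq_abs] at h
  rw [← h]
  refine Finset.sum_congr rfl fun χ _ => ?_
  rw [← mul_pow, ← norm_mul]
  congr 2
  have e : ∑ θ, (u (θ + g) : ℂ) * χ (-θ) = (∑ θ, (u θ : ℂ) * χ (-θ)) * χ g := by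
    rw [Finset.sum_mul]
    refine Fintype.sum_equiv (Equiv.addRight g) _ _ fun θ => ?_
    simp only [Equiv.coe_addRight]
    rw [mul_assoc, ← AddChar.map_add_eq_mul]
    congr 2
    abel
  rw [mul_sub, ← e, mul_one, ← Finset.sum_sub_distrib]
  refine Finset.sum_congr rfl fun θ _ => ?_
  push_cast
  ring

section
variable {G : Type} [AddCommGroup G] [Fintype G] {ι : Type} [Fintype ι] (y : G) (e : ι → G)
  (lam : ι → ℝ) (hlam : ∀ i, 0 ≤ lam i)
  (h : ∀ φ : G →+ UnitAddCircle, ‖φ y‖ ^ 2 ≤ ∑ i, lam i * ‖φ (e i)‖ ^ 2)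
include hlam h

theorem char_ineq (χ : AddChar G ℂ) : ‖χ y - 1‖ ^ 2 ≤ 4 * ∑ i, lam i * ‖χ (e i) - 1‖ ^ 2 := by
  obtain ⟨φ, hφ⟩ := exists_hom_of_addChar χ
  have h1 := (chord_bounds (φ y)).2
  rw [hφ] at h1
  have h2 : ‖χ y - 1‖ ^ 2 ≤ 64 * ‖φ y‖ ^ 2 := by
    have := pow_le_pow_left₀ (norm_nonneg _) h1 2
    nlinarith
  have h3 : 16 * ∑ i, lam i * ‖φ (e i)‖ ^ 2 ≤ ∑ i, lam i * ‖χ (e i) - 1‖ ^ 2 := by
    rw [Finset.mul_sum]
    refine Finset.sum_le_sum fun i _ => ?_
    have h4 := (chord_bounds (φ (e i))).1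
    rw [hφ] at h4
    have := pow_le_pow_left₀ (by positivity) h4 2
    have := mul_le_mul_of_nonneg_left this (hlam i)
    nlinarith
  have := h φ
  linarith

theorem poincare_sq (u : G → ℝ) :
    ∑ θ, (u (θ + y) - u θ) ^ 2 ≤ 4 * ∑ i, lam i * ∑ θ, (u (θ + e i) - u θ) ^ 2 := by
  have hc : (0 : ℝ) < Fintype.card G := by exact_mod_cast Fintype.card_pos
  refine le_of_mul_le_mul_left ?_ hc
  have e2 : (Fintype.card G : ℝ) * (4 * ∑ i, lam i * ∑ θ, (u (θ + e i) - u θ) ^ 2) =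
      4 * ∑ i, lam i * (Fintype.card G * ∑ θ, (u (θ + e i) - u θ) ^ 2) := by
    rw [Finset.mul_sum, Finset.mul_sum, Finset.mul_sum]
    refine Finset.sum_congr rfl fun i _ => by ring
  rw [e2, energy_eq]
  simp_rw [energy_eq, Finset.mul_sum]
  rw [Finset.sum_comm]
  refine Finset.sum_le_sum fun χ _ => ?_
  have := mul_le_mul_of_nonneg_left (char_ineq y e lam hlam h χ)
    (sq_nonneg ‖∑ θ, (u θ : ℂ) * χ (-θ)‖)
  refine this.trans (le_of_eq ?_)
  rw [Finset.mul_sum, Finset.mul_sum]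
  refine Finset.sum_congr rfl fun i _ => by ring

omit hlam h in
theorem layer (a b : ℝ) :
    MeasureTheory.Integrable
      (fun t : ℝ => ((if t < a then (1 : ℝ) else 0) - (if t < b then (1 : ℝ) else 0)) ^ 2) ∧
    ∫ t : ℝ, ((if t < a then (1 : ℝ) else 0) - (if t < b then (1 : ℝ) else 0)) ^ 2 = |a - b| := by
  have e : (fun t : ℝ => ((if t < a then (1 : ℝ) else 0) - (if t < b then (1 : ℝ) else 0)) ^ 2) =
      (Set.Ico (min a b) (max a b)).indicator 1 := by
    funext t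
    by_cases h1 : t < a <;> by_cases h2 : t < b <;>
      simp [h1, h2, Set.indicator, Set.mem_Ico]
  rw [e]
  constructor
  · rw [MeasureTheory.integrable_indicator_iff measurableSet_Ico]
    exact MeasureTheory.integrableOn_const (by simp)
  · rw [MeasureTheory.integral_indicator_one measurableSet_Ico]
    simp only [MeasureTheory.Measure.real, Real.volume_Ico]
    rw [ENNReal.toReal_ofReal (by simp), max_sub_min_eq_abs']

theorem poincare_abs (u : G → ℝ) :
    ∑ θ, |u (θ + y) - u θ| ≤ 4 * ∑ i, lam i * ∑ θ, |u (θ + e i) - u θ| := by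
  simp_rw [← (layer _ _).2]
  rw [← MeasureTheory.integral_finsetSum _ fun θ _ => (layer _ _).1]
  have hi : ∀ i, MeasureTheory.Integrable (fun t : ℝ => lam i * ∑ θ,
      ((if t < u (θ + e i) then (1 : ℝ) else 0) - (if t < u θ then (1 : ℝ) else 0)) ^ 2) :=
    fun i => (MeasureTheory.integrable_finsetSum _ fun θ _ => (layer _ _).1).const_mul _
  have e1 : ∀ i, lam i * ∑ θ, ∫ t : ℝ,
      ((if t < u (θ + e i) then (1 : ℝ) else 0) - (if t < u θ then (1 : ℝ) else 0)) ^ 2 =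
      ∫ t : ℝ, lam i * ∑ θ,
      ((if t < u (θ + e i) then (1 : ℝ) else 0) - (if t < u θ then (1 : ℝ) else 0)) ^ 2 := by
    intro i
    rw [MeasureTheory.integral_const_mul,
      MeasureTheory.integral_finsetSum _ fun θ _ => (layer _ _).1]
  simp_rw [e1]
  rw [← MeasureTheory.integral_finsetSum _ fun i _ => hi i, ← MeasureTheory.integral_const_mul]
  refine MeasureTheory.integral_mono
    (MeasureTheory.integrable_finsetSum _ fun θ _ => (layer _ _).1)
    ((MeasureTheory.integrable_finsetSum _ fun i _ => hi i).const_mul _) fun t => ?_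
  exact poincare_sq y e lam hlam h (fun θ => if t < u θ then (1 : ℝ) else 0)

theorem poincare_l1 (F : G → lp (fun _ : ℕ => ℝ) 1) :
    ∑ θ, ‖F (θ + y) - F θ‖ ≤ 4 * ∑ i, lam i * ∑ θ, ‖F (θ + e i) - F θ‖ := by
  have hs : ∀ a b : G, HasSum (fun n => |F a n - F b n|) ‖F a - F b‖ := by
    intro a b
    have := lp.hasSum_norm (p := 1) (by simp) (F a - F b)
    simpa using this
  have h1 : HasSum (fun n => ∑ θ, |F (θ + y) n - F θ n|) (∑ θ, ‖F (θ + y) - F θ‖) :=
    hasSum_sum fun θ _ => hs _ _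
  have h2 : HasSum (fun n => 4 * ∑ i, lam i * ∑ θ, |F (θ + e i) n - F θ n|)
      (4 * ∑ i, lam i * ∑ θ, ‖F (θ + e i) - F θ‖) :=
    (hasSum_sum fun i _ => (hasSum_sum fun θ _ => hs _ _).mul_left _).mul_left _
  exact hasSum_le (fun n => poincare_abs y e lam hlam h (fun θ => F θ n)) h1 h2

end

end Vale.Agent.P238
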