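import Vale.Agent.P238.Close
import Mathlib.Data.List.NodupEquivFin
import Mathlib.Algebra.Order.BigOperators.Group.Finset
import Mathlib.Data.Finset.Max

namespace Vale.Agent.P238

variable {α : Type}

/-- A monotone matching of equal symbols between two words. -/
def Match (X Y : List α) (M : Finset (ℕ × ℕ)) : Prop :=
  (∀ a ∈ M, ∃ s, X[a.1]? = some s ∧ Y[a.2]? = some s) ∧
    ∀ a ∈ M, ∀ b ∈ M, (a.1 < b.1 ↔ a.2 < b.2)

/-- Every monotone matching has at most `m - r` pairs. -/
def Far (X Y : List α) (m r : ℕ) : Prop := ∀ M, Match X Y M → M.card + r ≤ m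

theorem Far.le_of_close {X Y : List α} {m r t : ℕ} (h : Far X Y m r) (hX : X.length = m)
    (hc : Close X Y t) : r ≤ t := by
  obtain ⟨z, h1, h2, h3, -⟩ := hc
  obtain ⟨f, hf⟩ := List.sublist_iff_exists_orderEmbedding_getElem?_eq.mp h1
  obtain ⟨g, hg⟩ := List.sublist_iff_exists_orderEmbedding_getElem?_eq.mp h2
  have hM : Match X Y ((Finset.range z.length).image fun i => (f i, g i)) := by
    constructor
    · intro a ha
      obtain ⟨i, hi, rfl⟩ := Finset.mem_image.mp ha
      have hi' : i < z.length := Finset.mem_range.mp hi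
      exact ⟨z[i], by rw [← hf]; simp [hi'], by rw [← hg]; simp [hi']⟩
    · intro a ha b hb
      obtain ⟨i, -, rfl⟩ := Finset.mem_image.mp ha
      obtain ⟨j, -, rfl⟩ := Finset.mem_image.mp hb
      simp
  have := h _ hM
  rw [Finset.card_image_of_injective _ (fun i j hij => f.injective (congrArg Prod.fst hij)),
    Finset.card_range] at this
  omega

theorem Far.map {β : Type} {X Y : List α} {m r : ℕ} (f : α → β) (hf : Function.Injective f)
    (h : Far X Y m r) : Far (X.map f) (Y.map f) m r := by
  intro M hM
  apply h M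
  refine ⟨fun a ha => ?_, hM.2⟩
  obtain ⟨s, h1, h2⟩ := hM.1 a ha
  rw [List.getElem?_map, Option.map_eq_some_iff] at h1 h2
  obtain ⟨s1, h1, e1⟩ := h1
  obtain ⟨s2, h2, e2⟩ := h2
  have : s1 = s2 := hf (e1.trans e2.symm)
  exact ⟨s1, h1, this ▸ h2⟩

theorem getElem?_blocks (F : ℕ → List α) (m : ℕ) (hF : ∀ β, (F β).length = m) (N p : ℕ) (s : α)
    (h : ((List.range N).flatMap F)[p]? = some s) :
    p / m < N ∧ (F (p / m))[p % m]? = some s := by
  induction N with
  | zero => simp at h
  | succ N ih =>
    rw [List.range_succ, List.flatMap_append] at h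
    have hl : ((List.range N).flatMap F).length = N * m := by
      rw [length_flatMap_const _ F m fun a _ => hF a, List.length_range]
    by_cases hp : p < N * m
    · rw [List.getElem?_append_left (by omega)] at h
      obtain ⟨h1, h2⟩ := ih h
      exact ⟨by omega, h2⟩
    · rw [List.getElem?_append_right (by omega), hl] at h
      simp only [List.flatMap_cons, List.flatMap_nil, List.append_nil] at h
      have hlt : p - N * m < m := by
        have := (List.getElem?_eq_some_iff.mp h).1
        rwa [hF] at this
      have hm : 0 < m := by omega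
      have e1 : p / m = N := by
        rw [Nat.div_eq_iff hm]
        omega
      have e2 : p % m = p - N * m := by
        have := Nat.div_add_mod p m
        rw [e1, mul_comm] at this
        omega
      rw [e1, e2]
      exact ⟨by omega, h⟩

theorem stair (b h m r : ℕ) (hh : 0 < h) (hr : r ≤ m) (F F' : ℕ → List α) (tag : α → ℕ)
    (hF : ∀ β, (F β).length = m) (hF' : ∀ β, (F' β).length = m)
    (ht : ∀ β, ∀ s ∈ F β, tag s = β % (4 * h)) (ht' : ∀ β, ∀ s ∈ F' β, tag s = β % (4 * h))
    (hfar : ∀ j < b, ∀ j' < b, ∃ T : Finset ℕ, T.card < h ∧ ∀ c < 4 * h, c ∉ T →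
      Far (F (j * (4 * h) + c)) (F' (j' * (4 * h) + c)) m r) :
    Far ((List.range (b * (4 * h))).flatMap F) ((List.range (b * (4 * h))).flatMap F')
      (b * (4 * h) * m) (2 * b * h * r) := by
  classical
  intro M hM
  set B := 4 * h with hB
  have hB0 : 0 < B := by omega
  have hinfo : ∀ a ∈ M, a.1 / m < b * B ∧ a.2 / m < b * B ∧ (a.1 / m) % B = (a.2 / m) % B ∧
      ∃ s, (F (a.1 / m))[a.1 % m]? = some s ∧ (F' (a.2 / m))[a.2 % m]? = some s := by
    intro a ha
    obtain ⟨s, h1, h2⟩ := hM.1 a ha
    obtain ⟨g1, g2⟩ := getElem?_blocks F m hF _ _ _ h1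
    obtain ⟨g3, g4⟩ := getElem?_blocks F' m hF' _ _ _ h2
    refine ⟨g1, g3, ?_, s, g2, g4⟩
    rw [← ht _ s (List.mem_of_getElem? g2), ← ht' _ s (List.mem_of_getElem? g4)]
  have hinj : ∀ a ∈ M, ∀ a' ∈ M, a.1 = a'.1 → a = a' := by
    intro a ha a' ha' e
    have h1 := hM.2 a ha a' ha'
    have h2 := hM.2 a' ha' a ha
    ext
    · exact e
    · omega
  let Mb : ℕ → Finset (ℕ × ℕ) := fun β => M.filter fun a => a.1 / m = β
  have hcard : M.card = ∑ β ∈ Finset.range (b * B), (Mb β).card :=
    Finset.card_eq_sum_card_fiberwise fun a ha => Finset.mem_range.mpr (hinfo a ha).1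
  have hmodinj : ∀ β, ∀ a ∈ Mb β, ∀ a' ∈ Mb β, a.1 % m = a'.1 % m → a = a' := by
    intro β a ha a' ha' e
    obtain ⟨ha1, ha2⟩ := Finset.mem_filter.mp ha
    obtain ⟨ha1', ha2'⟩ := Finset.mem_filter.mp ha'
    apply hinj a ha1 a' ha1'
    rw [← Nat.div_add_mod a.1 m, ← Nat.div_add_mod a'.1 m, ha2, ha2', e]
  have hle : ∀ β, (Mb β).card ≤ m := by
    intro β
    rcases (Mb β).eq_empty_or_nonempty with he | ⟨a0, ha0⟩
    · simp [he]
    have hm : 0 < m := by
      obtain ⟨-, -, -, s, h1, -⟩ := hinfo a0 (Finset.mem_filter.mp ha0).1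
      have := (List.getElem?_eq_some_iff.mp h1).1
      rw [hF] at this
      omega
    have := Finset.card_le_card_of_injOn (s := Mb β) (t := Finset.range m) (fun a => a.1 % m)
      (fun a _ => by simpa using Nat.mod_lt _ hm) (fun a ha a' ha' e => hmodinj β a ha a' ha' e)
    simpa using this
  let Bad := (Finset.range (b * B)).filter fun β => ¬ ((Mb β).card + r ≤ m)
  have hne : ∀ β, ∃ a : ℕ × ℕ, β ∈ Bad → a ∈ Mb β ∧ ∀ a' ∈ Mb β, a.2 ≤ a'.2 := by
    intro β
    by_cases hβ : β ∈ Bad
    · have : (Mb β).Nonempty := by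
        rw [← Finset.card_pos]
        have := (Finset.mem_filter.mp hβ).2
        omega
      obtain ⟨a, ha, ha'⟩ := Finset.exists_min_image (Mb β) (fun a => a.2) this
      exact ⟨a, fun _ => ⟨ha, ha'⟩⟩
    · exact ⟨(0, 0), fun h => absurd h hβ⟩
  choose A hA using hne
  have hBad : Bad.card ≤ h * (Finset.range (2 * b)).card := by
    apply Finset.card_le_mul_card_image_of_maps_to (f := fun β => β / B + (A β).2 / m / B)
    · intro β hβ
      have h1 : β < b * B := Finset.mem_range.mp (Finset.mem_filter.mp hβ).1
      have h2 := (hinfo _ (Finset.mem_filter.mp (hA β hβ).1).1).2.1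
      have h3 : β / B < b := (Nat.div_lt_iff_lt_mul hB0).mpr h1
      have h4 : (A β).2 / m / B < b := (Nat.div_lt_iff_lt_mul hB0).mpr h2
      simp only [Finset.mem_range]
      omega
    · intro σ _
      set S := Bad.filter fun β => β / B + (A β).2 / m / B = σ with hS
      rcases S.eq_empty_or_nonempty with he | hne
      · simp [he]
      obtain ⟨β0, hβ0, hmax⟩ := Finset.exists_max_image S id hne
      obtain ⟨hβ0B, hβ0σ⟩ := Finset.mem_filter.mp hβ0
      have h1 : β0 < b * B := Finset.mem_range.mp (Finset.mem_filter.mp hβ0B).1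
      obtain ⟨hA0M, hA0e⟩ := Finset.mem_filter.mp (hA β0 hβ0B).1
      have h2 := (hinfo _ hA0M).2.1
      have h3 : β0 / B < b := (Nat.div_lt_iff_lt_mul hB0).mpr h1
      have h4 : (A β0).2 / m / B < b := (Nat.div_lt_iff_lt_mul hB0).mpr h2
      obtain ⟨T, hT, hTfar⟩ := hfar _ h3 _ h4
      have key : ∀ β ∈ S.erase β0, β / B = β0 / B ∧ β % B ∈ T := by
        intro β hβ
        obtain ⟨hne0, hβS⟩ := Finset.mem_erase.mp hβ
        obtain ⟨hβB, hβσ⟩ := Finset.mem_filter.mp hβS
        have hlt : β < β0 := lt_of_le_of_ne (hmax β hβS) hne0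
        have hup : ∀ a ∈ Mb β, a.2 / m / B ≤ (A β0).2 / m / B := by
          intro a ha
          obtain ⟨haM, hae⟩ := Finset.mem_filter.mp ha
          have : a.1 < (A β0).1 := by
            apply Nat.lt_of_div_lt_div (c := m)
            omega
          have := (hM.2 a haM _ hA0M).mp this
          exact Nat.div_le_div_right (Nat.div_le_div_right this.le)
        have hj : β / B ≤ β0 / B := Nat.div_le_div_right hlt.le
        have hj' := hup _ (hA β hβB).1
        have e1 : β / B = β0 / B := by omega
        have e2 : (A β).2 / m / B = (A β0).2 / m / B := by omega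
        refine ⟨e1, ?_⟩
        by_contra hnT
        have hf := hTfar (β % B) (Nat.mod_lt _ hB0) hnT
        have hβe : β0 / B * B + β % B = β := by
          rw [← e1, mul_comm]; exact Nat.div_add_mod β B
        have hall : ∀ a ∈ Mb β, a.2 / m = (A β0).2 / m / B * B + β % B := by
          intro a ha
          obtain ⟨haM, hae⟩ := Finset.mem_filter.mp ha
          have u1 := hup a ha
          have u2 : (A β).2 / m / B ≤ a.2 / m / B :=
            Nat.div_le_div_right (Nat.div_le_div_right ((hA β hβB).2 a ha))
          have u3 : a.2 / m / B = (A β0).2 / m / B := by omega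
          have u4 := (hinfo a haM).2.2.1
          rw [← u3, ← hae, u4, mul_comm]
          exact (Nat.div_add_mod _ _).symm
        have hM' : Match (F (β0 / B * B + β % B)) (F' ((A β0).2 / m / B * B + β % B))
            ((Mb β).image fun a => (a.1 % m, a.2 % m)) := by
          constructor
          · intro a' ha'
            obtain ⟨a, ha, rfl⟩ := Finset.mem_image.mp ha'
            obtain ⟨haM, hae⟩ := Finset.mem_filter.mp ha
            obtain ⟨-, -, -, s, g1, g2⟩ := hinfo a haM
            refine ⟨s, ?_, ?_⟩
            · rw [hβe, ← hae]; exact g1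
            · rw [← hall a ha]; exact g2
          · intro a' ha' c' hc'
            obtain ⟨a, ha, rfl⟩ := Finset.mem_image.mp ha'
            obtain ⟨c, hc, rfl⟩ := Finset.mem_image.mp hc'
            obtain ⟨haM, hae⟩ := Finset.mem_filter.mp ha
            obtain ⟨hcM, hce⟩ := Finset.mem_filter.mp hc
            have v := hM.2 a haM c hcM
            have v1 := Nat.div_add_mod a.1 m
            have v2 := Nat.div_add_mod c.1 m
            have v3 := Nat.div_add_mod a.2 m
            have v4 := Nat.div_add_mod c.2 m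
            rw [hae] at v1
            rw [hce] at v2
            rw [hall a ha] at v3
            rw [hall c hc] at v4
            simp only
            omega
        have := hf _ hM'
        rw [Finset.card_image_of_injOn
          (fun a ha a' ha' e => hmodinj β a ha a' ha' (congrArg Prod.fst e))] at this
        exact (Finset.mem_filter.mp hβB).2 this
      have hc : (S.erase β0).card ≤ T.card := by
        apply Finset.card_le_card_of_injOn (fun β => β % B) (fun β hβ => (key β hβ).2)
        intro β hβ β' hβ' e
        have w1 := (key β hβ).1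
        have w2 := (key β' hβ').1
        simp only at e
        rw [← Nat.div_add_mod β B, ← Nat.div_add_mod β' B, w1, w2, e]
      rw [Finset.card_erase_of_mem hβ0] at hc
      omega
  rw [Finset.card_range] at hBad
  have hsum : ∑ β ∈ Finset.range (b * B), ((Mb β).card + if β ∈ Bad then 0 else r) ≤
      ∑ β ∈ Finset.range (b * B), m := by
    refine Finset.sum_le_sum fun β hβ => ?_
    split_ifs with hb
    · simpa using hle β
    · by_contra hcon
      exact hb (Finset.mem_filter.mpr ⟨hβ, hcon⟩)
  rw [Finset.sum_add_distrib, ← hcard, Finset.sum_const, Finset.card_range, smul_eq_mul,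
    Finset.sum_ite, Finset.sum_const_zero, zero_add, Finset.sum_const, smul_eq_mul] at hsum
  have hc2 : ((Finset.range (b * B)).filter fun β => β ∈ Bad).card +
      ((Finset.range (b * B)).filter fun β => β ∉ Bad).card = b * B := by
    rw [Finset.card_filter_add_card_filter_not, Finset.card_range]
  have hc3 : ((Finset.range (b * B)).filter fun β => β ∈ Bad).card ≤ Bad.card :=
    Finset.card_le_card fun β hβ => (Finset.mem_filter.mp hβ).2
  have hc4 : 2 * b * h ≤ ((Finset.range (b * B)).filter fun β => β ∉ Bad).card := by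
    have e1 : b * B = 4 * (b * h) := by rw [hB]; ring
    have e2 : h * (2 * b) = 2 * (b * h) := by ring
    have e3 : 2 * b * h = 2 * (b * h) := by ring
    omega
  have := Nat.mul_le_mul_right r hc4
  omega

end Vale.Agent.P238
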