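import Vale.Agent.P238.Circle
import Vale.Agent.P238.Stair
import Mathlib.RingTheory.Coprime.Lemmas

namespace Vale.Agent.P238

open Finset

/-- The recursive family of words indexed by a finite abelian group. -/
structure Gad (b h Q τ : ℕ) (η : ℝ) (i q : ℕ) : Type 1 where
  G : Type
  [grp : AddCommGroup G]
  [fin : Fintype G]
  W : G → List (List ℕ)
  y : G
  L : Type
  [finL : Fintype L]
  eL : L → G
  cL : L → ℕ
  A : Type
  [finA : Fintype A]
  eA : A → G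
  cA : A → ℕ
  len : ∀ θ, (W θ).length = (b * (4 * h)) ^ i
  good : ∀ θ, GoodWord Q (i + 1) (W θ)
  closeL : ∀ l θ, Close (W θ) (W (θ + eL l)) (cL l)
  closeA : ∀ a θ, Close (W θ) (W (θ + eA a)) (cA a)
  sumL : ∑ l, cL l ≤ (b * (4 * h)) ^ i
  sumA : b * ∑ a, cA a ≤ i * (b * (4 * h)) ^ i
  far : ∀ S : ℕ, (S + b) * (Q + 1) ^ i < 2 ^ h → ∀ s : ℤ, ¬ (q : ℤ) ∣ s → s.natAbs ≤ S →
    ∀ θ, Far (W θ) (W (θ + s • y)) ((b * (4 * h)) ^ i) ((2 * b * h) ^ i)
  tors : ∀ φ : G →+ UnitAddCircle, (∀ a, ‖φ (eA a)‖ ≤ η) →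
    ∃ w : UnitAddCircle, q • w = 0 ∧ ‖φ y - w‖ ≤ η * (((4 * h : ℕ) : ℝ) * (Q + 1) + 1) ^ i
  big : ∀ φ : G →+ UnitAddCircle, (∀ a, ‖φ (eA a)‖ ≤ η) →
    η * (((4 * h : ℕ) : ℝ) * (Q + 1) + 1) ^ i < ‖φ y‖ →
    (τ : ℝ) ^ i ≤ (Q : ℝ) ^ 2 * ∑ l, ‖φ (eL l)‖ ^ 2
  one : ∀ φ : G →+ UnitAddCircle, φ y ≠ 0 → 1 ≤ (Q : ℝ) ^ 2 * ∑ l, ‖φ (eL l)‖ ^ 2

attribute [instance] Gad.grp Gad.fin Gad.finL Gad.finA

theorem gad_base (b h Q τ : ℕ) (η : ℝ) (hη : 0 ≤ η) (q : ℕ) (hq : 0 < q) (hqQ : q ≤ Q) :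
    Nonempty (Gad b h Q τ η 0 q) := by
  have : NeZero q := ⟨hq.ne'⟩
  have hone : ∀ φ : ZMod q →+ UnitAddCircle, φ 1 ≠ 0 → 1 ≤ (Q : ℝ) ^ 2 * ‖φ 1‖ ^ 2 := by
    intro φ hφ
    have h1 : q • φ 1 = 0 := by
      rw [← map_nsmul, nsmul_eq_mul, mul_one, ZMod.natCast_self, map_zero]
    have h2 := torsion_norm hq h1 hφ
    have h3 : (q : ℝ) ≤ Q := by exact_mod_cast hqQ
    have h4 : 1 ≤ (Q : ℝ) * ‖φ 1‖ := h2.trans (mul_le_mul_of_nonneg_right h3 (norm_nonneg _))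
    rw [← mul_pow]
    exact one_le_pow₀ h4
  refine ⟨{
    G := ZMod q
    W := fun θ => [[θ.val]]
    y := 1
    L := Unit
    eL := fun _ => 1
    cL := fun _ => 1
    A := Empty
    eA := fun a => a.elim
    cA := fun a => a.elim
    len := fun θ => by simp
    good := ?_
    closeL := fun _ θ => Close.of_length_le (by simp) (by simp)
    closeA := fun a => a.elim
    sumL := by simp
    sumA := by simp
    far := ?_
    tors := ?_
    big := ?_
    one := ?_ }⟩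
  · intro θ σ hσ
    simp only [List.mem_singleton] at hσ
    subst hσ
    simpa using (ZMod.val_lt θ).le.trans hqQ
  · intro S _ s hs _ θ M hM
    have : M = ∅ := by
      rw [Finset.eq_empty_iff_forall_notMem]
      intro a ha
      obtain ⟨σ, h1, h2⟩ := hM.1 a ha
      have g1 := List.mem_of_getElem? h1
      have g2 := List.mem_of_getElem? h2
      simp only [List.mem_singleton] at g1 g2
      rw [g1] at g2
      simp only [List.cons.injEq, and_true] at g2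
      have := ZMod.val_injective q g2
      simp only [zsmul_eq_mul, mul_one, left_eq_add] at this
      exact hs ((ZMod.intCast_zmod_eq_zero_iff_dvd s q).mp this)
    simp [this]
  · intro φ _
    refine ⟨φ 1, ?_, by simpa using hη⟩
    rw [← map_nsmul, nsmul_eq_mul, mul_one, ZMod.natCast_self, map_zero]
  · intro φ _ hb
    have : φ 1 ≠ 0 := by
      intro h0
      rw [h0] at hb
      simp at hb
      linarith
    simpa using hone φ this
  · intro φ hφ
    simpa using hone φ hφ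

theorem few_aligned {B Q q h b S : ℕ} (p t : Fin B → ℕ)
    (hp : ∀ c c', c ≠ c' → Nat.Coprime (p c) (p c')) (hp2 : ∀ c, 2 ≤ p c)
    (hqt : ∀ c, q * t c % p c = 1) (hqQ : q ≤ Q) (hS : S + Q * b < 2 ^ h)
    (s a : ℤ) (hs : ¬ (q : ℤ) ∣ s) (hsS : s.natAbs ≤ S) (ha : a.natAbs ≤ b) :
    (Finset.univ.filter fun c => (p c : ℤ) ∣ s * t c + a).card < h := by
  set T := Finset.univ.filter fun c => (p c : ℤ) ∣ s * t c + a with hT
  have hne : s + q * a ≠ 0 := by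
    intro h0
    apply hs
    exact ⟨-a, by linarith⟩
  have hdvd : ∀ c ∈ T, (p c : ℤ) ∣ s + q * a := by
    intro c hc
    have h1 : (p c : ℤ) ∣ s * t c + a := (Finset.mem_filter.mp hc).2
    have h2 : ((q * t c : ℕ) : ℤ) = p c * ((q * t c / p c : ℕ) : ℤ) + 1 := by
      have := Nat.div_add_mod (q * t c) (p c)
      rw [hqt c] at this
      exact_mod_cast this.symm
    have h3 : s + q * a = q * (s * t c + a) - p c * (s * ((q * t c / p c : ℕ) : ℤ)) := by
      have : (q : ℤ) * t c = p c * ((q * t c / p c : ℕ) : ℤ) + 1 := by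
        rw [← h2]; push_cast; ring
      linear_combination (-s) * this
    rw [h3]
    exact (h1.mul_left _).sub (dvd_mul_right _ _)
  have hprod : (∏ c ∈ T, (p c : ℤ)) ∣ s + q * a :=
    Finset.prod_dvd_of_coprime
      (fun c _ c' _ hcc => Nat.isCoprime_iff_coprime.mpr (hp c c' hcc)) hdvd
  have h1 : ∏ c ∈ T, p c ≤ (s + q * a).natAbs := by
    apply Nat.le_of_dvd (Int.natAbs_pos.mpr hne)
    rw [← Int.natCast_dvd]
    push_cast
    exact hprod
  have h2 : 2 ^ T.card ≤ ∏ c ∈ T, p c := Finset.pow_card_le_prod T p 2 fun c _ => hp2 c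
  have h3 : (s + q * a).natAbs ≤ S + Q * b := by
    refine (Int.natAbs_add_le _ _).trans (add_le_add hsS ?_)
    rw [Int.natAbs_mul, Int.natAbs_natCast]
    exact Nat.mul_le_mul hqQ ha
  have : 2 ^ T.card < 2 ^ h := by omega
  exact (Nat.pow_lt_pow_iff_right (by norm_num)).mp this

section step
variable {b h Q τ : ℕ} {η : ℝ} {i : ℕ} {p : Fin (4 * h) → ℕ} (g : ∀ c, Gad b h Q τ η i (p c))

/-- The block of child `c` in round `j`. -/
def blk (θ : ∀ c, (g c).G) (c : Fin (4 * h)) (j : ℕ) : List (List ℕ) :=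
  ((g c).W (θ c + j • (g c).y)).map fun σ => c.val :: σ

/-- The child index of block number `β`. -/
def cf (hh : 0 < h) (β : ℕ) : Fin (4 * h) := ⟨β % (4 * h), Nat.mod_lt _ (by omega)⟩

/-- The word one level up. -/
def WW (hh : 0 < h) (θ : ∀ c, (g c).G) : List (List ℕ) :=
  (List.range (b * (4 * h))).flatMap fun β => blk g θ (cf hh β) (β / (4 * h))

theorem blk_len (θ : ∀ c, (g c).G) (c : Fin (4 * h)) (j : ℕ) :
    (blk g θ c j).length = (b * (4 * h)) ^ i := by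
  simp [blk, (g c).len]

theorem WW_len (hh : 0 < h) (θ : ∀ c, (g c).G) :
    (WW g hh θ).length = (b * (4 * h)) ^ (i + 1) := by
  rw [WW, length_flatMap_const _ _ _ fun β _ => blk_len g θ _ _, List.length_range]
  ring

theorem WW_good (hh : 0 < h) (hQ : 4 * h ≤ Q) (θ : ∀ c, (g c).G) :
    GoodWord Q (i + 1 + 1) (WW g hh θ) := by
  intro σ hσ
  simp only [WW, List.mem_flatMap, blk, List.mem_map] at hσ
  obtain ⟨β, -, σ', h1, rfl⟩ := hσ
  obtain ⟨h2, h3⟩ := (g _).good _ σ' h1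
  refine ⟨by simp [h2], ?_⟩
  intro a ha
  rcases List.mem_cons.mp ha with rfl | ha
  · exact (cf hh β).2.le.trans hQ
  · exact h3 a ha

theorem count_cf (hh : 0 < h) (c : Fin (4 * h)) (r n : ℕ) :
    ((List.range (n * (4 * h))).map fun β => if cf hh β = c then r else 0).sum = n * r := by
  induction n with
  | zero => simp
  | succ n ih =>
    rw [add_mul, one_mul, List.range_add, List.map_append, List.sum_append, ih, List.map_map]
    have e : ((fun β => if cf hh β = c then r else 0) ∘ fun x => n * (4 * h) + x) =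
        fun β => if β % (4 * h) = c.val then r else 0 := by
      funext β
      simp only [Function.comp, cf, Fin.ext_iff]
      rw [show n * (4 * h) + β = β + 4 * h * n by ring, Nat.add_mul_mod_self_left]
    rw [e, Finset.sum_list_map_count]
    simp only [List.toFinset_range]
    rw [Finset.sum_eq_single c.val]
    · rw [List.count_eq_one_of_mem List.nodup_range (by simp)]
      simp [Nat.mod_eq_of_lt c.2]
      ring
    · intro β hβ hne
      rw [Nat.mod_eq_of_lt (Finset.mem_range.mp hβ), if_neg hne, smul_zero]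
    · intro hc
      exact absurd (Finset.mem_range.mpr c.2) hc

theorem WW_close_single (hh : 0 < h) (c : Fin (4 * h)) (e : (g c).G) (r : ℕ)
    (he : ∀ θ, Close ((g c).W θ) ((g c).W (θ + e)) r) (θ : ∀ c, (g c).G) :
    Close (WW g hh θ) (WW g hh (θ + Pi.single c e)) (b * r) := by
  rw [← count_cf hh c r b]
  apply Close.flatMap_list
  intro β _
  split_ifs with hc
  · rw [hc]
    apply Close.map
    simp only [Pi.add_apply, Pi.single_eq_same]
    rw [add_right_comm]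
    exact he _
  · unfold blk
    simp only [Pi.add_apply, Pi.single_eq_of_ne hc, add_zero]
    exact Close.refl _

theorem WW_close_shift (hh : 0 < h) (hb : 0 < b) (θ : ∀ c, (g c).G) :
    Close (WW g hh θ) (WW g hh (θ + fun c => (g c).y)) (4 * h * (b * (4 * h)) ^ i) := by
  obtain ⟨n, rfl⟩ : ∃ n, b = n + 1 := ⟨b - 1, by omega⟩
  have hB : 0 < 4 * h := by omega
  have e1 : WW g hh θ = ((List.range (4 * h)).flatMap fun β => blk g θ (cf hh β) (β / (4 * h))) ++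
      (List.range (n * (4 * h))).flatMap fun β => blk g θ (cf hh β) (β / (4 * h) + 1) := by
    rw [WW, show (n + 1) * (4 * h) = 4 * h + n * (4 * h) by ring, List.range_add,
      List.flatMap_append, List.flatMap_map]
    congr 2
    funext β
    have : cf hh (4 * h + β) = cf hh β := by simp [cf]
    rw [this, Nat.add_div_left _ hB]
  have e2 : WW g hh (θ + fun c => (g c).y) =
      ((List.range (n * (4 * h))).flatMap fun β => blk g θ (cf hh β) (β / (4 * h) + 1)) ++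
      ((List.range (4 * h)).map (n * (4 * h) + ·)).flatMap
        fun β => blk g θ (cf hh β) (β / (4 * h) + 1) := by
    rw [WW, show (n + 1) * (4 * h) = n * (4 * h) + 4 * h by ring, List.range_add,
      ← List.flatMap_append]
    congr 1
    funext β
    unfold blk
    simp only [Pi.add_apply]
    rw [succ_nsmul, add_assoc, add_comm (g _).y]
  rw [e1, e2]
  refine ⟨_, List.sublist_append_right _ _, List.sublist_append_left _ _, ?_, ?_⟩
  · rw [List.length_append, length_flatMap_const _ _ _ fun β _ => blk_len g θ _ _,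
      List.length_range]
    omega
  · rw [List.length_append,
      length_flatMap_const (List.map _ _) _ _ fun β _ => blk_len g θ _ _]
    simp

theorem WW_far (hh : 0 < h) (hQ : 2 ≤ Q) {q : ℕ} (hqQ : q ≤ Q) (t : Fin (4 * h) → ℕ)
    (hp : ∀ c c', c ≠ c' → Nat.Coprime (p c) (p c')) (hp2 : ∀ c, 2 ≤ p c)
    (hqt : ∀ c, q * t c % p c = 1) (ht : ∀ c, t c ≤ Q)
    (S : ℕ) (hS : (S + b) * (Q + 1) ^ (i + 1) < 2 ^ h) (s : ℤ) (hs : ¬ (q : ℤ) ∣ s)
    (hsS : s.natAbs ≤ S) (θ : ∀ c, (g c).G) :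
    Far (WW g hh θ) (WW g hh (θ + s • fun c => t c • (g c).y)) ((b * (4 * h)) ^ (i + 1))
      ((2 * b * h) ^ (i + 1)) := by
  have hB : 0 < 4 * h := by omega
  rw [pow_succ', pow_succ' (2 * b * h)]
  have hpos : 1 ≤ (Q + 1) ^ i := Nat.one_le_pow _ _ (by omega)
  have hS1 : S + Q * b < 2 ^ h := by
    refine lt_of_le_of_lt ?_ hS
    rw [pow_succ]
    calc S + Q * b ≤ (S + b) * (1 * (Q + 1)) := by nlinarith
      _ ≤ (S + b) * ((Q + 1) ^ i * (Q + 1)) := by gcongr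
  have hS2 : (S * Q + b + b) * (Q + 1) ^ i < 2 ^ h := by
    refine lt_of_le_of_lt ?_ hS
    rw [pow_succ', ← mul_assoc]
    apply Nat.mul_le_mul_right
    nlinarith
  apply stair b h _ _ hh (Nat.pow_le_pow_left (by nlinarith) _) _ _ (fun σ => σ.headD 0)
    (fun β => blk_len g _ _ _) (fun β => blk_len g _ _ _)
  · intro β σ hσ
    simp only [blk, List.mem_map] at hσ
    obtain ⟨σ', -, rfl⟩ := hσ
    rfl
  · intro β σ hσ
    simp only [blk, List.mem_map] at hσ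
    obtain ⟨σ', -, rfl⟩ := hσ
    rfl
  · intro j hj j' hj'
    have ha : ((j' : ℤ) - j).natAbs ≤ b := by omega
    have hfew := few_aligned p t hp hp2 hqt hqQ hS1 s ((j' : ℤ) - j) hs hsS ha
    refine ⟨(Finset.univ.filter fun c => (p c : ℤ) ∣ s * t c + ((j' : ℤ) - j)).image Fin.val,
      lt_of_le_of_lt Finset.card_image_le hfew, ?_⟩
    intro c hc hcT
    have hcf : ∀ k, cf hh (k * (4 * h) + c) = ⟨c, hc⟩ := by
      intro k
      simp only [cf, Fin.ext_iff]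
      rw [show k * (4 * h) + c = c + 4 * h * k by ring, Nat.add_mul_mod_self_left,
        Nat.mod_eq_of_lt hc]
    have hdiv : ∀ k, (k * (4 * h) + c) / (4 * h) = k := by
      intro k
      rw [show k * (4 * h) + c = c + 4 * h * k by ring, Nat.add_mul_div_left _ _ hB,
        Nat.div_eq_of_lt hc, zero_add]
    rw [hcf, hcf, hdiv, hdiv]
    unfold blk
    apply Far.map _ (fun σ σ' e => (List.cons.inj e).2)
    have hnd : ¬ (p ⟨c, hc⟩ : ℤ) ∣ s * t ⟨c, hc⟩ + ((j' : ℤ) - j) := by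
      intro hd
      exact hcT (Finset.mem_image.mpr ⟨⟨c, hc⟩, by simpa using hd, rfl⟩)
    have hbound : (s * t ⟨c, hc⟩ + ((j' : ℤ) - j)).natAbs ≤ S * Q + b := by
      refine (Int.natAbs_add_le _ _).trans (add_le_add ?_ ha)
      rw [Int.natAbs_mul, Int.natAbs_natCast]
      exact Nat.mul_le_mul hsS (ht _)
    have := (g ⟨c, hc⟩).far (S * Q + b) hS2 _ hnd hbound (θ ⟨c, hc⟩ + j • (g ⟨c, hc⟩).y)
    convert this using 2
    simp only [Pi.add_apply, Pi.smul_apply]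
    rw [add_smul, sub_smul, mul_smul, natCast_zsmul, natCast_zsmul, natCast_zsmul]
    abel

/-- Restriction of a character to child `c`. -/
noncomputable def res (φ : (∀ c, (g c).G) →+ UnitAddCircle) (c : Fin (4 * h)) :
    (g c).G →+ UnitAddCircle :=
  φ.comp (AddMonoidHom.single (fun c => (g c).G) c)

theorem res_apply (φ : (∀ c, (g c).G) →+ UnitAddCircle) (c : Fin (4 * h)) (e : (g c).G) :
    res g φ c e = φ (Pi.single c e) := rfl

theorem res_split (φ : (∀ c, (g c).G) →+ UnitAddCircle) (v : ∀ c, (g c).G) :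
    φ v = ∑ c, res g φ c (v c) := by
  simp_rw [res_apply]
  rw [← map_sum, Finset.univ_sum_single]

theorem res_y (t : Fin (4 * h) → ℕ) (φ : (∀ c, (g c).G) →+ UnitAddCircle) :
    φ (fun c => t c • (g c).y) = ∑ c, t c • res g φ c (g c).y := by
  rw [res_split]
  simp

theorem res_N (φ : (∀ c, (g c).G) →+ UnitAddCircle) :
    (Q : ℝ) ^ 2 * ∑ l : (Σ c, (g c).L), ‖φ (Pi.single l.1 ((g l.1).eL l.2))‖ ^ 2 =
      ∑ c, (Q : ℝ) ^ 2 * ∑ l, ‖res g φ c ((g c).eL l)‖ ^ 2 := by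
  rw [Fintype.sum_sigma, Finset.mul_sum]
  rfl

omit g in
theorem delta_le (hη : 0 ≤ η) :
    η + ((4 * h : ℕ) : ℝ) * (Q + 1) * (η * (((4 * h : ℕ) : ℝ) * (Q + 1) + 1) ^ i) ≤
      η * (((4 * h : ℕ) : ℝ) * (Q + 1) + 1) ^ (i + 1) := by
  have h0 : (0 : ℝ) ≤ ((4 * h : ℕ) : ℝ) * (Q + 1) := by positivity
  generalize ((4 * h : ℕ) : ℝ) * (Q + 1) = D at h0 ⊢
  have hΓi : 1 ≤ (D + 1) ^ i := one_le_pow₀ (by linarith)
  have := mul_le_mul_of_nonneg_left hΓi hη
  rw [pow_succ]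
  nlinarith

theorem step_tors (hη : 0 ≤ η) {q : ℕ} (hq : 0 < q) (t : Fin (4 * h) → ℕ)
    (hqt : ∀ c, q * t c % p c = 1) (ht : ∀ c, t c ≤ Q) (φ : (∀ c, (g c).G) →+ UnitAddCircle)
    (h0 : ‖φ (fun c => (g c).y)‖ ≤ η) (h1 : ∀ c a, ‖res g φ c ((g c).eA a)‖ ≤ η) :
    ∃ w : UnitAddCircle, q • w = 0 ∧ ‖φ (fun c => t c • (g c).y) - w‖ ≤
      η * (((4 * h : ℕ) : ℝ) * (Q + 1) + 1) ^ (i + 1) := by
  choose w hw hxw using fun c => (g c).tors (res g φ c) (h1 c)
  rw [res_split] at h0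
  obtain ⟨w', h3, h4⟩ := char_step_tors p t (fun c => res g φ c (g c).y) w hw hxw h0 ht hq hqt
  refine ⟨w', h3, ?_⟩
  rw [res_y]
  exact h4.trans (delta_le hη)

theorem step_big (hη : 0 ≤ η) (hQ : 1 ≤ Q) (t : Fin (4 * h) → ℕ)
    (hp : ∀ c c', c ≠ c' → Nat.Coprime (p c) (p c')) (hp2 : ∀ c, 2 ≤ p c) (hpQ : ∀ c, p c ≤ Q)
    (ht : ∀ c, t c ≤ Q)
    (hsmall : η * (((4 * h : ℕ) : ℝ) * (Q + 1) + 1) ^ (i + 1) * (Q : ℝ) ^ τ < 1)
    (φ : (∀ c, (g c).G) →+ UnitAddCircle)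
    (h0 : ‖φ (fun c => (g c).y)‖ ≤ η) (h1 : ∀ c a, ‖res g φ c ((g c).eA a)‖ ≤ η)
    (hbig : η * (((4 * h : ℕ) : ℝ) * (Q + 1) + 1) ^ (i + 1) < ‖φ (fun c => t c • (g c).y)‖) :
    (τ : ℝ) ^ (i + 1) ≤ ∑ c, (Q : ℝ) ^ 2 * ∑ l, ‖res g φ c ((g c).eL l)‖ ^ 2 := by
  choose w hw hxw using fun c => (g c).tors (res g φ c) (h1 c)
  rw [res_split] at h0
  rw [res_y] at hbig
  have h3 := char_step_big p t (fun c => res g φ c (g c).y) w hw hxw h0 ht (τ := τ)
    (by positivity) (delta_le hη) hp (fun c => by have := hp2 c; omega) hpQ hQ hbig hsmall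
  have h4 : ∀ c, η * (((4 * h : ℕ) : ℝ) * (Q + 1) + 1) ^ i < ‖res g φ c (g c).y‖ →
      (τ : ℝ) ^ i ≤ (Q : ℝ) ^ 2 * ∑ l, ‖res g φ c ((g c).eL l)‖ ^ 2 :=
    fun c hc => (g c).big (res g φ c) (h1 c) hc
  have h5 : ∀ c, 0 ≤ (Q : ℝ) ^ 2 * ∑ l, ‖res g φ c ((g c).eL l)‖ ^ 2 := fun c =>
    mul_nonneg (sq_nonneg _) (Finset.sum_nonneg fun l _ => sq_nonneg _)
  generalize η * (((4 * h : ℕ) : ℝ) * (Q + 1) + 1) ^ i = ε at h3 h4
  generalize hT : (Finset.univ.filter fun c => ε < ‖res g φ c (g c).y‖) = T at h3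
  have h6 : ∀ c ∈ T, ε < ‖res g φ c (g c).y‖ := by
    intro c hc
    rw [← hT] at hc
    exact (Finset.mem_filter.mp hc).2
  have h7 : (τ : ℝ) ≤ T.card := by exact_mod_cast h3
  calc (τ : ℝ) ^ (i + 1) = τ * (τ : ℝ) ^ i := by ring
    _ ≤ (T.card : ℝ) * (τ : ℝ) ^ i := mul_le_mul_of_nonneg_right h7 (by positivity)
    _ = ∑ _c ∈ T, (τ : ℝ) ^ i := by simp
    _ ≤ ∑ c ∈ T, (Q : ℝ) ^ 2 * ∑ l, ‖res g φ c ((g c).eL l)‖ ^ 2 :=
      Finset.sum_le_sum fun c hc => h4 c (h6 c hc)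
    _ ≤ _ := Finset.sum_le_sum_of_subset_of_nonneg (Finset.subset_univ _) fun c _ _ => h5 c

theorem step_one (t : Fin (4 * h) → ℕ) (φ : (∀ c, (g c).G) →+ UnitAddCircle)
    (hφ : φ (fun c => t c • (g c).y) ≠ 0) :
    1 ≤ ∑ c, (Q : ℝ) ^ 2 * ∑ l, ‖res g φ c ((g c).eL l)‖ ^ 2 := by
  rw [res_y] at hφ
  obtain ⟨c, -, hc⟩ := Finset.exists_ne_zero_of_sum_ne_zero hφ
  have hc' : res g φ c (g c).y ≠ 0 := fun h0 => hc (by rw [h0, smul_zero])
  have h5 : ∀ c, 0 ≤ (Q : ℝ) ^ 2 * ∑ l, ‖res g φ c ((g c).eL l)‖ ^ 2 := fun c =>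
    mul_nonneg (sq_nonneg _) (Finset.sum_nonneg fun l _ => sq_nonneg _)
  exact ((g c).one _ hc').trans (Finset.single_le_sum
    (f := fun c => (Q : ℝ) ^ 2 * ∑ l, ‖res g φ c ((g c).eL l)‖ ^ 2)
    (fun c _ => h5 c) (Finset.mem_univ c))

theorem step_sumL : ∑ l : (Σ c, (g c).L), b * (g l.1).cL l.2 ≤ (b * (4 * h)) ^ (i + 1) := by
  rw [Fintype.sum_sigma]
  have : ∀ c, ∑ l, b * (g c).cL l ≤ b * (b * (4 * h)) ^ i := by
    intro c
    rw [← Finset.mul_sum]
    exact Nat.mul_le_mul_left _ (g c).sumL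
  refine (Finset.sum_le_sum fun c _ => this c).trans (le_of_eq ?_)
  simp only [Finset.sum_const, Finset.card_univ, Fintype.card_fin, smul_eq_mul]
  ring

theorem step_sumA : b * (4 * h * (b * (4 * h)) ^ i + ∑ l : (Σ c, (g c).A), b * (g l.1).cA l.2) ≤
    (i + 1) * (b * (4 * h)) ^ (i + 1) := by
  rw [Fintype.sum_sigma]
  have : ∀ c, ∑ l, b * (g c).cA l ≤ i * (b * (4 * h)) ^ i := by
    intro c
    rw [← Finset.mul_sum]
    exact (g c).sumA
  have h2 := Finset.sum_le_sum fun c (_ : c ∈ Finset.univ) => this c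
  simp only [Finset.sum_const, Finset.card_univ, Fintype.card_fin, smul_eq_mul] at h2
  calc b * (4 * h * (b * (4 * h)) ^ i + ∑ c, ∑ l, b * (g c).cA l)
      ≤ b * (4 * h * (b * (4 * h)) ^ i + 4 * h * (i * (b * (4 * h)) ^ i)) :=
        Nat.mul_le_mul_left _ (Nat.add_le_add_left h2 _)
    _ = (i + 1) * (b * (4 * h)) ^ (i + 1) := by ring

end step

theorem gad_step {b h Q τ : ℕ} {η : ℝ} {i : ℕ} {p : Fin (4 * h) → ℕ}
    (g : ∀ c, Gad b h Q τ η i (p c)) (hh : 0 < h) (hb : 0 < b) (hQ : 4 * h ≤ Q) (hη : 0 ≤ η)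
    (hp : ∀ c c', c ≠ c' → Nat.Coprime (p c) (p c')) (hp2 : ∀ c, 2 ≤ p c) (hpQ : ∀ c, p c ≤ Q)
    (q : ℕ) (hq : 0 < q) (hqQ : q ≤ Q) (hqp : ∀ c, Nat.Coprime q (p c))
    (hsmall : η * (((4 * h : ℕ) : ℝ) * (Q + 1) + 1) ^ (i + 1) * (Q : ℝ) ^ τ < 1) :
    Nonempty (Gad b h Q τ η (i + 1) q) := by
  have ht0 : ∀ c, ∃ t < p c, q * t % p c = 1 :=
    fun c => Nat.exists_mul_mod_eq_one_of_coprime (hqp c) (hp2 c)
  choose t ht hqt using ht0
  have htQ : ∀ c, t c ≤ Q := fun c => (ht c).le.trans (hpQ c)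
  refine ⟨{
    G := ∀ c, (g c).G
    W := WW g hh
    y := fun c => t c • (g c).y
    L := Σ c, (g c).L
    eL := fun l => Pi.single l.1 ((g l.1).eL l.2)
    cL := fun l => b * (g l.1).cL l.2
    A := Option (Σ c, (g c).A)
    eA := fun a => a.elim (fun c => (g c).y) fun l => Pi.single l.1 ((g l.1).eA l.2)
    cA := fun a => a.elim (4 * h * (b * (4 * h)) ^ i) fun l => b * (g l.1).cA l.2
    len := WW_len g hh
    good := WW_good g hh hQ
    closeL := fun l θ => WW_close_single g hh l.1 _ _ ((g l.1).closeL l.2) θ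
    closeA := ?_
    sumL := step_sumL g
    sumA := ?_
    far := WW_far g hh (by omega) hqQ t hp hp2 hqt htQ
    tors := fun φ hφ => step_tors g hη hq t hqt htQ φ (hφ none) fun c a => hφ (some ⟨c, a⟩)
    big := ?_
    one := ?_ }⟩
  · rintro (_ | l) θ
    · exact WW_close_shift g hh hb θ
    · exact WW_close_single g hh l.1 _ _ ((g l.1).closeA l.2) θ
  · rw [Fintype.sum_option]
    exact step_sumA g
  · intro φ hφ hbig
    rw [res_N]
    exact step_big g hη (by omega) t hp hp2 hpQ htQ hsmall φ (hφ none)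
      (fun c a => hφ (some ⟨c, a⟩)) hbig
  · intro φ hφ
    rw [res_N]
    exact step_one g t φ hφ

theorem gad_exists (b h Q τ : ℕ) (η : ℝ) (k : ℕ) (hh : 0 < h) (hb : 0 < b) (hQ : 4 * h ≤ Q)
    (hη : 0 ≤ η) (P : ℕ → Fin (4 * h) → ℕ)
    (hp : ∀ i c c', c ≠ c' → Nat.Coprime (P i c) (P i c')) (hp2 : ∀ i c, 2 ≤ P i c)
    (hpQ : ∀ i c, P i c ≤ Q) (hpp : ∀ i c c', Nat.Coprime (P (i + 1) c) (P i c'))
    (hsmall : η * (((4 * h : ℕ) : ℝ) * (Q + 1) + 1) ^ k * (Q : ℝ) ^ τ < 1) :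
    ∀ i ≤ k, ∀ c, Nonempty (Gad b h Q τ η i (P i c)) := by
  intro i
  induction i with
  | zero =>
    intro _ c
    exact gad_base b h Q τ η hη _ (by have := hp2 0 c; omega) (hpQ 0 c)
  | succ i ih =>
    intro hi c
    refine gad_step (fun c => (ih (by omega) c).some) hh hb hQ hη (hp i) (hp2 i) (hpQ i) _
      (by have := hp2 (i + 1) c; omega) (hpQ _ c) (hpp i c) ?_
    refine lt_of_le_of_lt ?_ hsmall
    have : (1 : ℝ) ≤ ((4 * h : ℕ) : ℝ) * (Q + 1) + 1 := by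
      have : (0 : ℝ) ≤ ((4 * h : ℕ) : ℝ) * (Q + 1) := by positivity
      linarith
    gcongr

end Vale.Agent.P238
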