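import Vale.Agent.P238.Bound
import Mathlib.NumberTheory.Chebyshev
import Mathlib.Analysis.Complex.ExponentialBounds

namespace Vale.Agent.P238

theorem sq_le_two_pow (u : ℕ) (hu : 4 ≤ u) : u * u ≤ 2 ^ u := by
  induction u, hu using Nat.le_induction with
  | base => norm_num
  | succ n hn ih => rw [pow_succ]; nlinarith

theorem many_primes (u : ℕ) (hu : 12 ≤ u) :
    360 * (u * 2 ^ u) ≤ Nat.primeCounting (2 ^ (6 * u)) := by
  have h := Chebyshev.pi_ge (2 ^ (6 * u))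
  have hl2 : 0 < Real.log 2 := Real.log_pos (by norm_num)
  have hu0 : (0 : ℝ) < u := by exact_mod_cast (by omega : 0 < u)
  have e1 : Real.log ((2 ^ (6 * u) : ℕ) : ℝ) = 6 * u * Real.log 2 := by
    push_cast
    rw [Real.log_pow]
    push_cast
    ring
  have e2 : Real.log (((2 ^ (6 * u) : ℕ) : ℝ) + 1) ≤ (6 * u + 1) * Real.log 2 := by
    have : ((2 ^ (6 * u) : ℕ) : ℝ) + 1 ≤ 2 ^ (6 * u + 1) := by
      have : (1 : ℝ) ≤ 2 ^ (6 * u) := one_le_pow₀ (by norm_num)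
      push_cast
      rw [pow_succ]
      linarith
    refine (Real.log_le_log (by positivity) this).trans (le_of_eq ?_)
    rw [Real.log_pow]
    push_cast
    ring
  have hK : 360 * (u * 2 ^ u) * (6 * u) + (6 * u + 1) ≤ 2 ^ (6 * u) := by
    have h1 : u < 2 ^ u := Nat.lt_two_pow_self
    have h2 : 2 ^ 12 ≤ 2 ^ u := Nat.pow_le_pow_right (by norm_num) hu
    rw [mul_comm 6 u, pow_mul]
    generalize 2 ^ u = K at h1 h2
    have h3 : 360 * (u * K) * (u * 6) ≤ K * K * K * K := by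
      calc 360 * (u * K) * (u * 6) = 2160 * u * u * K := by ring
        _ ≤ K * K * K * K := by gcongr <;> omega
    have h4 : u * 6 + 1 ≤ K * K * K * K := by
      calc u * 6 + 1 ≤ K * 7 * 1 * 1 := by omega
        _ ≤ K * K * K * K := by gcongr <;> omega
    calc 360 * (u * K) * (u * 6) + (u * 6 + 1) ≤ K * K * K * K * 2 * 1 := by omega
      _ ≤ K * K * K * K * K * K := by gcongr <;> omega
      _ = K ^ 6 := by ring
  have hK' : (360 * (u * 2 ^ u) : ℕ) * (6 * u : ℝ) + (6 * u + 1) ≤ ((2 ^ (6 * u) : ℕ) : ℝ) := by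
    exact_mod_cast hK
  have : ((360 * (u * 2 ^ u) : ℕ) : ℝ) ≤ Nat.primeCounting (2 ^ (6 * u)) := by
    refine le_trans ?_ h
    rw [e1, le_div_iff₀ (by positivity)]
    have := mul_le_mul_of_nonneg_right hK' hl2.le
    nlinarith
  exact_mod_cast this

theorem exists_moduli (B Q : ℕ) (hQ : 2 * B ≤ Nat.primeCounting Q) :
    ∃ P : ℕ → Fin B → ℕ, (∀ i c c', c ≠ c' → Nat.Coprime (P i c) (P i c')) ∧ (∀ i c, 2 ≤ P i c) ∧
      (∀ i c, P i c ≤ Q) ∧ ∀ i c c', Nat.Coprime (P (i + 1) c) (P i c') := by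
  have hinj := Nat.nth_injective Nat.infinite_setOfPred_prime
  refine ⟨fun i c => Nat.nth Nat.Prime (c.val + i % 2 * B), ?_, ?_, ?_, ?_⟩
  · intro i c c' hcc
    rw [Nat.coprime_primes (Nat.prime_nth_prime _) (Nat.prime_nth_prime _)]
    intro e
    have := hinj e
    exact hcc (Fin.ext (by omega))
  · intro i c
    exact (Nat.prime_nth_prime _).two_le
  · intro i c
    apply Nat.le_of_lt_succ
    apply Nat.nth_lt_of_lt_count
    refine lt_of_lt_of_le ?_ hQ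
    have := c.2
    rcases Nat.mod_two_eq_zero_or_one i with h | h <;> rw [h] <;> omega
  · intro i c c'
    rw [Nat.coprime_primes (Nat.prime_nth_prime _) (Nat.prime_nth_prime _)]
    intro e
    have := hinj e
    have h1 := c.2
    have h2 := c'.2
    rcases Nat.mod_two_eq_zero_or_one i with h | h
    · have h' : (i + 1) % 2 = 1 := by omega
      rw [h, h'] at this
      omega
    · have h' : (i + 1) % 2 = 0 := by omega
      rw [h, h'] at this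
      omega

theorem level_bound (u : ℕ) (hu : 12 ≤ u) (n : ℕ) (hn : 2 ^ (40 * (u * 2 ^ u) * 2 ^ u) ≤ n) :
    Real.exp ((u * 2 ^ u : ℕ) / 4) ≤ l1Distortion (binaryED n) := by
  apply le_l1Distortion
  intro f A B hA0 hB0 hA hB
  have hK1 : u < 2 ^ u := Nat.lt_two_pow_self
  have hK2 : 2 ^ 12 ≤ 2 ^ u := Nat.pow_le_pow_right (by norm_num) hu
  have hK3 : u * u ≤ 2 ^ u := sq_le_two_pow u (by omega)
  have hpr := many_primes u hu
  obtain ⟨K, hK⟩ : ∃ K, K = 2 ^ u := ⟨_, rfl⟩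
  obtain ⟨x, hx⟩ : ∃ x, x = u * K := ⟨_, rfl⟩
  obtain ⟨X, hX⟩ : ∃ X, X = 2 ^ x := ⟨_, rfl⟩
  have hQe : 2 ^ (6 * u) = K ^ 6 := by rw [hK, ← pow_mul, mul_comm]
  rw [hQe] at hpr
  rw [← hK] at hK1 hK2 hK3 hpr hn ⊢
  rw [← hx] at hpr hn ⊢
  have hKK : K ^ K = X := by rw [hX, hx, pow_mul, ← hK]
  have hx0 : 12 * K ≤ x := by rw [hx]; exact Nat.mul_le_mul_right _ hu
  have hK4 : 12 * u ≤ K := le_trans (Nat.mul_le_mul_right _ hu) hK3
  have hxK : x ≤ K * K := by rw [hx]; exact Nat.mul_le_mul_right _ hK1.le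
  have hB3 : 4 * (45 * x) ≤ K ^ 3 := by
    calc 4 * (45 * x) = 180 * x := by ring
      _ ≤ K * (K * K) := Nat.mul_le_mul (by omega) hxK
      _ = K ^ 3 := by ring
  have hX1 : 2 ≤ X := by
    rw [hX]
    calc 2 = 2 ^ 1 := by norm_num
      _ ≤ 2 ^ x := Nat.pow_le_pow_right (by norm_num) (by omega)
  have hKX : K ≤ X := by
    rw [hX]
    exact le_trans (by omega) (Nat.lt_two_pow_self (n := x)).le
  have hKpow : ∀ a c : ℕ, a ≤ c → K ^ a ≤ K ^ c := fun a c hac =>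
    Nat.pow_le_pow_right (by omega) hac
  have hQ1 : K ^ 6 + 1 ≤ K ^ 7 := by
    have : 1 ≤ K ^ 6 := Nat.one_le_pow _ _ (by omega)
    calc K ^ 6 + 1 ≤ K ^ 6 * 2 := by omega
      _ ≤ K ^ 6 * K := Nat.mul_le_mul_left _ (by omega)
      _ = K ^ 7 := by ring
  obtain ⟨P, hP1, hP2, hP3, hP4⟩ := exists_moduli (4 * (45 * x)) (K ^ 6) (by omega)
  have hXr : (2 : ℝ) ≤ X := by exact_mod_cast hX1
  have hΓ : (((4 * (45 * x) : ℕ) : ℝ) * (((K ^ 6 : ℕ) : ℝ) + 1) + 1) ^ K ≤ (X : ℝ) ^ 10 := by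
    have h1 : 4 * (45 * x) * (K ^ 6 + 1) + 1 ≤ K ^ 10 := by
      have h2 : 1 ≤ K ^ 6 := Nat.one_le_pow _ _ (by omega)
      have h3 : 4 * (45 * x) * (K ^ 6 + 1) ≤ K ^ 3 * (K ^ 6 * 2) :=
        Nat.mul_le_mul hB3 (by omega)
      have h4 : 1 ≤ K ^ 3 * K ^ 6 := Nat.mul_pos (Nat.one_le_pow _ _ (by omega)) h2
      calc 4 * (45 * x) * (K ^ 6 + 1) + 1 ≤ K ^ 3 * (K ^ 6 * 2) + K ^ 3 * K ^ 6 := by omega
        _ = K ^ 9 * 3 := by ring
        _ ≤ K ^ 9 * K := Nat.mul_le_mul_left _ (by omega)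
        _ = K ^ 10 := by ring
    have h5 : (4 * (45 * x) * (K ^ 6 + 1) + 1) ^ K ≤ X ^ 10 := by
      rw [← hKK, ← pow_mul, mul_comm K 10, pow_mul]
      exact Nat.pow_le_pow_left h1 _
    exact_mod_cast h5
  have hQτ : ((K ^ 6 : ℕ) : ℝ) ^ K = (X : ℝ) ^ 6 := by
    have : (K ^ 6) ^ K = X ^ 6 := by rw [← hKK, ← pow_mul, ← pow_mul, mul_comm]
    exact_mod_cast this
  have hττ : (K : ℝ) ^ K = X := by exact_mod_cast hKK
  have hη : (0 : ℝ) < 1 / (X : ℝ) ^ 17 := by positivity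
  have hε : 1 / (X : ℝ) ^ 17 * (((4 * (45 * x) : ℕ) : ℝ) * (((K ^ 6 : ℕ) : ℝ) + 1) + 1) ^ K ≤
      1 / (X : ℝ) ^ 7 := by
    refine (mul_le_mul_of_nonneg_left hΓ hη.le).trans (le_of_eq ?_)
    field_simp
  obtain ⟨g⟩ := gad_exists (X ^ 36) (45 * x) (K ^ 6) K (1 / (X : ℝ) ^ 17) K (by omega)
    (by positivity) (hB3.trans (hKpow 3 6 (by norm_num))) hη.le P hP1 hP2 hP3 hP4 (by
      rw [hQτ]
      refine lt_of_le_of_lt (mul_le_mul_of_nonneg_right hε (by positivity)) ?_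
      have : 1 / (X : ℝ) ^ 7 * (X : ℝ) ^ 6 = 1 / X := by field_simp
      rw [this, div_lt_one (by positivity)]
      linarith) K le_rfl ⟨0, by omega⟩
  have hl : (K + 1 + 1) * (K ^ 6 + 2) ≤ K ^ 8 := by
    have h2 : 2 ≤ K ^ 6 := by
      have := hKpow 1 6 (by norm_num)
      rw [pow_one] at this
      omega
    calc (K + 1 + 1) * (K ^ 6 + 2) ≤ (K * 2) * (K ^ 6 * 2) := Nat.mul_le_mul (by omega) (by omega)
      _ = K ^ 7 * 4 := by ring
      _ ≤ K ^ 7 * K := Nat.mul_le_mul_left _ (by omega)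
      _ = K ^ 8 := by ring
  have hmain := gad_bound g (hP2 _ _) hη (by omega) (by positivity) (by omega) ?_ ?_ ?_ n ?_
    f A B hA0 hB0 hA hB
  · rw [hττ] at hmain
    have h1 : 512 * ((K + 1 + 1) * (K ^ 6 + 2)) * (K ^ 6) ^ 2 * 2 ^ K ≤ 2 ^ (9 + 20 * u + K) := by
      calc 512 * ((K + 1 + 1) * (K ^ 6 + 2)) * (K ^ 6) ^ 2 * 2 ^ K
          ≤ 512 * K ^ 8 * (K ^ 6) ^ 2 * 2 ^ K := by gcongr
        _ = 2 ^ 9 * K ^ 20 * 2 ^ K := by ring
        _ = 2 ^ (9 + 20 * u + K) := by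
          rw [pow_add, pow_add, mul_comm 20 u, pow_mul, ← hK]
    have h2 : 2 * (9 + 20 * u + K) ≤ x := by omega
    obtain ⟨y, hy⟩ : ∃ y, y = 9 + 20 * u + K := ⟨_, rfl⟩
    rw [← hy] at h1 h2
    have h3 : 512 * (((K + 1 + 1) * (K ^ 6 + 2) : ℕ) : ℝ) * ((K ^ 6 : ℕ) : ℝ) ^ 2 * 2 ^ K ≤
        2 ^ y := by exact_mod_cast h1
    have h4 := hmain.trans (mul_le_mul_of_nonneg_right h3 (mul_nonneg hA0 hB0))
    obtain ⟨z, hz⟩ : ∃ z, x = y + z := ⟨x - y, by omega⟩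
    have h5 : (X : ℝ) = 2 ^ y * 2 ^ z := by
      rw [hX, hz]
      push_cast
      rw [pow_add]
    rw [h5] at h4
    have h6 : (2 : ℝ) ^ z ≤ A * B := le_of_mul_le_mul_left h4 (by positivity)
    refine le_trans ?_ h6
    have h7 : (2 : ℝ) ^ z = Real.exp (z * Real.log 2) := by
      rw [Real.exp_nat_mul, Real.exp_log (by norm_num)]
    rw [h7, Real.exp_le_exp]
    have h8 : (x : ℝ) ≤ 2 * z := by exact_mod_cast (by omega : x ≤ 2 * z)
    have h9 := Real.log_two_gt_d9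
    have h10 : (0 : ℝ) ≤ z := Nat.cast_nonneg _
    nlinarith
  · have h1 : 1 + X ^ 36 ≤ X ^ 37 := by
      have : 1 ≤ X ^ 36 := Nat.one_le_pow _ _ (by omega)
      calc 1 + X ^ 36 ≤ X ^ 36 * 2 := by omega
        _ ≤ X ^ 36 * X := Nat.mul_le_mul_left _ hX1
        _ = X ^ 37 := by ring
    have h2 : (K ^ 6 + 1) ^ K ≤ X ^ 7 := by
      rw [← hKK, ← pow_mul, mul_comm K 7, pow_mul]
      exact Nat.pow_le_pow_left hQ1 _
    calc (1 + X ^ 36) * (K ^ 6 + 1) ^ K ≤ X ^ 37 * X ^ 7 := Nat.mul_le_mul h1 h2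
      _ = X ^ 44 := by rw [← pow_add]
      _ < X ^ 45 := Nat.pow_lt_pow_right (by omega) (by norm_num)
      _ = 2 ^ (45 * x) := by rw [hX, ← pow_mul, mul_comm]
  · rw [hττ]
    have h1 := pow_le_pow_left₀ (by positivity) hε 2
    refine (mul_le_mul_of_nonneg_right h1 (by positivity)).trans ?_
    have : (1 / (X : ℝ) ^ 7) ^ 2 * X = 1 / (X : ℝ) ^ 13 := by field_simp
    rw [this, div_le_one (by positivity)]
    exact one_le_pow₀ (by linarith)
  · rw [hττ]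
    have h1 : (K : ℝ) ≤ X := by exact_mod_cast hKX
    have h2 : (1 : ℝ) ≤ ((K ^ 6 : ℕ) : ℝ) ^ 2 := by
      apply one_le_pow₀
      exact_mod_cast Nat.one_le_pow _ _ (by omega)
    have h3 : ((X ^ 36 : ℕ) : ℝ) * (1 / (X : ℝ) ^ 17) ^ 2 = X * X := by
      push_cast
      field_simp
    rw [h3]
    nlinarith
  · refine le_trans ?_ hn
    have h1 : X ^ 36 * (4 * (45 * x)) ≤ X ^ 39 := by
      calc X ^ 36 * (4 * (45 * x)) ≤ X ^ 36 * X ^ 3 :=
            Nat.mul_le_mul_left _ (hB3.trans (Nat.pow_le_pow_left hKX _))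
        _ = X ^ 39 := by rw [← pow_add]
    have h2 : K ^ 8 ≤ X ^ K :=
      (Nat.pow_le_pow_left hKX _).trans (Nat.pow_le_pow_right (by omega) (by omega))
    calc (X ^ 36 * (4 * (45 * x))) ^ K * ((K + 1 + 1) * (K ^ 6 + 2))
        ≤ (X ^ 39) ^ K * X ^ K := Nat.mul_le_mul (Nat.pow_le_pow_left h1 _) (hl.trans h2)
      _ = 2 ^ (40 * x * K) := by
        rw [← mul_pow, ← pow_succ, ← pow_mul, hX, ← pow_mul]
        congr 1
        ring

theorem exists_level (u0 n : ℕ) (g : ℕ → ℕ) (hg : ∀ u, u ≤ g u) (hn : 2 ^ g u0 ≤ n) :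
    ∃ u, u0 ≤ u ∧ 2 ^ g u ≤ n ∧ n < 2 ^ g (u + 1) := by
  by_contra hcon
  push Not at hcon
  have : ∀ v, 2 ^ g (u0 + v) ≤ n := by
    intro v
    induction v with
    | zero => exact hn
    | succ v ih => exact hcon (u0 + v) (Nat.le_add_right _ _) ih
  have h1 := this n
  have h2 : n < 2 ^ n := Nat.lt_two_pow_self
  have h3 : 2 ^ n ≤ 2 ^ g (u0 + n) :=
    Nat.pow_le_pow_right (by norm_num) (le_trans (by omega) (hg _))
  omega

theorem lower_bound : ∃ N : ℕ, ∀ n : ℕ, N ≤ n →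
    Real.exp (1 / 144 * √(Real.log n * Real.log (Real.log n))) ≤ l1Distortion (binaryED n) := by
  obtain ⟨u0, hu0⟩ : ∃ u0 : ℕ, 12 ≤ u0 := ⟨12, le_rfl⟩
  refine ⟨2 ^ (40 * (u0 * 2 ^ u0) * 2 ^ u0), fun n hn => ?_⟩
  obtain ⟨u, hu, h1, h2⟩ := exists_level u0 n (fun u => 40 * (u * 2 ^ u) * 2 ^ u) (fun u => by
    have : 1 ≤ 2 ^ u := Nat.one_le_two_pow
    calc u = 1 * (u * 1) * 1 := by ring
      _ ≤ 40 * (u * 2 ^ u) * 2 ^ u := by gcongr; norm_num) hn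
  have hu12 : 12 ≤ u := hu0.trans hu
  refine le_trans ?_ (level_bound u hu12 n h1)
  rw [Real.exp_le_exp]
  have hK1 : u < 2 ^ u := Nat.lt_two_pow_self
  have hK2 : 2 ^ 12 ≤ 2 ^ u := Nat.pow_le_pow_right (by norm_num) hu12
  have hn2 : 2 ≤ n := by
    refine le_trans ?_ h1
    calc 2 = 2 ^ 1 := by norm_num
      _ ≤ _ := Nat.pow_le_pow_right (by norm_num) (by
        apply Nat.one_le_iff_ne_zero.mpr
        have : u ≠ 0 := by omega
        positivity)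
  have hnr : (2 : ℝ) ≤ n := by exact_mod_cast hn2
  have hlog0 : 0 < Real.log n := Real.log_pos (by linarith)
  have hl2 : Real.log 2 ≤ 1 := by have := Real.log_two_lt_d9; linarith
  obtain ⟨K, hK⟩ : ∃ K, K = 2 ^ u := ⟨_, rfl⟩
  rw [pow_succ 2 u] at h2
  rw [← hK] at hK1 hK2 h2 ⊢
  have hlog1 : Real.log n ≤ ((320 * u * K * K : ℕ) : ℝ) := by
    have h3 : n ≤ 2 ^ (320 * u * K * K) := by
      refine h2.le.trans (Nat.pow_le_pow_right (by norm_num) ?_)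
      calc 40 * ((u + 1) * (K * 2)) * (K * 2) = 160 * (u + 1) * K * K := by ring
        _ ≤ 320 * u * K * K := by gcongr ?_ * K * K; omega
    have h4 : (n : ℝ) ≤ 2 ^ (320 * u * K * K) := by exact_mod_cast h3
    refine (Real.log_le_log (by linarith) h4).trans ?_
    rw [Real.log_pow]
    exact mul_le_of_le_one_right (Nat.cast_nonneg _) hl2
  have hlog2 : Real.log (Real.log n) ≤ ((4 * u : ℕ) : ℝ) := by
    have h3 : 320 * u * K * K ≤ 2 ^ (4 * u) := by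
      rw [mul_comm 4 u, pow_mul, ← hK]
      calc 320 * u * K * K ≤ K * K * K * K := by gcongr <;> omega
        _ = K ^ 4 := by ring
    have h4 : Real.log n ≤ 2 ^ (4 * u) := hlog1.trans (by exact_mod_cast h3)
    refine (Real.log_le_log hlog0 h4).trans ?_
    rw [Real.log_pow]
    exact mul_le_of_le_one_right (Nat.cast_nonneg _) hl2
  have hprod : Real.log n * Real.log (Real.log n) ≤ (36 * ((u * K : ℕ) : ℝ)) ^ 2 := by
    refine ((mul_le_mul_of_nonneg_left hlog2 hlog0.le).trans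
      (mul_le_mul_of_nonneg_right hlog1 (Nat.cast_nonneg _))).trans ?_
    push_cast
    have : (0 : ℝ) ≤ ((u : ℝ) * K) ^ 2 := sq_nonneg _
    nlinarith
  have hs : √(Real.log n * Real.log (Real.log n)) ≤ 36 * ((u * K : ℕ) : ℝ) :=
    Real.sqrt_le_iff.mpr ⟨by positivity, hprod⟩
  linarith

end Vale.Agent.P238
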